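import Vale.Agent.P353.AN.SY.TyD
import Vale.Agent.P353.AN.NF.Std
import Vale.Agent.P353.AN.Fin.Main

/-! # P353, all `N`, block SY: the weak profile system of a model (assembly, helper667) -/

open MeasureTheory Filter Topology Matrix
open scoped ContDiff

namespace Vale.Agent.P353.Z.ASY

open Vale.Agent.P353.Z.AJK

variable {N d : ℕ} {F : Type} [NormedAddCommGroup F] [InnerProductSpace ℂ F]

/-- `su(N)` has no centre -/
lemma cless_model {M : BFSS.Model N d F} {S : Setup d F} (hN : 1 ≤ N) (hbas : Bas N d M.T M.f) (hRep : U.Rep M S) :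
    AN.Cless S := by
  intro v hv
  rw [hRep.hf] at hv
  set X : Matrix (Fin N) (Fin N) ℂ := ∑ A, ((v A : ℝ) : ℂ) • M.T A with hX
  have h0 : X = 0 := by
    refine ANF.nst_centre hN hbas X ?_ fun B => ?_
    · rw [hX, Matrix.trace_sum]
      simp [Matrix.trace_smul, hbas.tr0]
    · have h1 : X * M.T B - M.T B * X = 0 := by
        have h2 : X * M.T B - M.T B * X = ∑ A, ((v A : ℝ) : ℂ) • (M.T A * M.T B - M.T B * M.T A) := by
          rw [hX, Finset.sum_mul, Finset.mul_sum, ← Finset.sum_sub_distrib]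
          refine Finset.sum_congr rfl fun A _ => ?_
          rw [Matrix.smul_mul, Matrix.mul_smul, smul_sub]
        rw [h2]
        simp only [hbas.comm, Finset.smul_sum, smul_smul]
        rw [Finset.sum_comm]
        refine Finset.sum_eq_zero fun C _ => ?_
        rw [← Finset.sum_smul]
        have h3 : ∑ A, ((v A : ℝ) : ℂ) * (Complex.I * (M.f A B C : ℂ)) = 0 := by
          have h4 : ∑ A, ((v A : ℝ) : ℂ) * (Complex.I * (M.f A B C : ℂ)) = Complex.I * ((∑ A, M.f A B C * v A : ℝ) : ℂ) := by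
            push_cast
            rw [Finset.mul_sum]
            exact Finset.sum_congr rfl fun A _ => by ring
          rw [h4, hv B C]
          simp
        rw [h3, zero_smul]
      exact sub_eq_zero.1 h1
  funext B
  have h5 : (X * M.T B).trace = ((v B : ℝ) : ℂ) := by
    rw [hX, Finset.sum_mul, Matrix.trace_sum]
    simp [Matrix.trace_smul, hbas.ortho]
  rw [h0, Matrix.zero_mul, Matrix.trace_zero] at h5
  have h6 : (v B : ℂ) = 0 := h5.symm
  exact_mod_cast h6

/-- outputs of the analytic blocks used by `pwT` -/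
structure Ana (F : Type) [NormedAddCommGroup F] [InnerProductSpace ℂ F] : Prop where
  rot : ∀ {d : ℕ} (S : Setup d F), AE.RotOStmt S
  iso : ∀ {d : ℕ} (S : Setup d F), AL.IsoStmt S
  lin : ∀ {d : ℕ} (S : Setup d F), AL.LinStmt S
  zmem : ∀ {d : ℕ} (S : Setup d F), AL.ZMemStmt S
  ub : ∀ {d : ℕ} (S : Setup d F), AL.UBStmt S
  limO : ∀ {d : ℕ} (S : Setup d F), AE.LimOStmt S
  chi : AE.ChiStmt
  ic : ∀ (e : ℕ) (T : Setup e F), AN.Cless T → AD.ICStmt T

/-- the concrete system -/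
noncomputable def sysP {S : Setup d F} (hfin : FiniteDimensional ℂ F) (hAn : Ana F) {ι : Type} (ty : ι → Ty S) (hC : AN.Cless S) :
    PW S ι :=
  pwT hfin (hAn.rot S) (fun S' => hAn.iso S') (fun S' => hAn.lin S') (fun S' => hAn.zmem S') (fun S' => hAn.ub S') ty hC

/-- **output of block JN (helper714)**: no loss -/
def NoLossOut : Prop := ∀ (N d : ℕ) (F : Type) [NormedAddCommGroup F] [InnerProductSpace ℂ F] (hfin : FiniteDimensional ℂ F)
  (M : BFSS.Model N d F) (S : Setup d F), U.Rep M S → ∀ (hAn : Ana F) (ι : Type) (ty : ι → Ty S) (hC : AN.Cless S),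
  AJ.CovT M S ty → (sysP hfin hAn ty hC).NoLoss

/-- **output of blocks REP, LOW, SGN (helper647, 858, 679)**: gauge invariant representatives -/
def RepOut : Prop := ∀ (N d : ℕ) (F : Type) [NormedAddCommGroup F] [InnerProductSpace ℂ F] (hfin : FiniteDimensional ℂ F)
  (M : BFSS.Model N d F) (S : Setup d F), U.Rep M S → ∀ (hAn : Ana F) (TD : ∀ p : Typ N, TyD M S (pn p.1)) (hC : AN.Cless S),
  SepStmt M S → (∀ (p : Typ N) a, OneA.{0} 1 ((TD p).D.fr.fb (pn p.1 a))) →
  ∃ J, (sysP hfin hAn (fun p => (TD p).ty) hC).Rep J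

/-- the covering property of the family -/
theorem covT {M : BFSS.Model N d F} {S : Setup d F} (hN : 1 ≤ N) (hA : Alg) (hRep : U.Rep M S)
    (TD : ∀ p : Typ N, TyD M S (pn p.1)) : AJ.CovT M S fun p : Typ N => (TD p).ty := by
  intro Y hY hV
  obtain ⟨p, hp, h⟩ := hA.cov M S hRep hN Y hY hV
  obtain ⟨U, η, hη, he⟩ := h (TD ⟨p, hp⟩).D (hA.val _ _)
  refine ⟨⟨p, hp⟩, U, η, ?_, ?_, he⟩
  · rintro rfl
    have : Nontrivial (Fin (Multiset.card p.parts)) := Fin.nontrivial_iff_two_le.2 hp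
    obtain ⟨a, b, hab⟩ := exists_pair_ne (Fin (Multiset.card p.parts))
    obtain ⟨i, hi⟩ := hη a b hab
    exact hi ((Finset.sum_eq_zero fun B _ => zero_mul _).trans (Finset.sum_eq_zero fun B _ => zero_mul _).symm)
  · exact ((hA.pt M S _ _ (TD ⟨p, hp⟩).D (hA.val _ _) (hA.reg _ _) (hA.std _ _) hA.basM).2.2 η).2 hη

/-- **the system exists** -/
theorem sys (hA : Alg) (hAn : ∀ (F : Type) [NormedAddCommGroup F] [InnerProductSpace ℂ F] (_ : FiniteDimensional ℂ F), Ana F)
    (hNL : NoLossOut) (hRO : RepOut) (N : ℕ) (hN : 2 ≤ N) : Fin1.SysStmt N := by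
  intro hih d F _ _ hfin M S hRep
  have hN1 : 1 ≤ N := by omega
  have IH : ∀ n, 1 ≤ n → n < N → IHM.{0} n := fun n h1 h2 d E _ _ _ M' S' h' => hih n h1 h2 d E M' S' h'
  obtain ⟨hcard, hpn⟩ := hA.cnt N hN1
  have hirr : S.Irr := Fin1.irr_of hRep
  have hTD : ∀ p : Typ N, Nonempty (TyD M S (pn p.1)) := by
    intro p
    obtain ⟨h1, h2, h3⟩ := hpn p.1
    exact exTyD hfin hA (fun e T => (hAn F hfin).ic e T) hRep hirr M.nontrivial p.2 h1 h2 fun a => IH _ (h1 a) (h3 p.2 a)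
  let TD : ∀ p : Typ N, TyD M S (pn p.1) := fun p => (hTD p).some
  have hC : AN.Cless S := cless_model hN1 (hA.basM N d F M) hRep
  have hOne : ∀ (p : Typ N) a, OneA.{0} 1 ((TD p).D.fr.fb (pn p.1 a)) := by
    intro p a
    obtain ⟨h1, h2, h3⟩ := hpn p.1
    exact hA.ih _ _ _ _ ((TD p).D.fr.Tb_bas _ (h1 a)) (IH _ (h1 a) (h3 p.2 a))
  refine ⟨Typ N, inferInstance, sysP hfin (hAn F hfin) (fun p => (TD p).ty) hC, hcard, ?_, ?_, ?_⟩
  · exact pwT_limEq _ _ _ _ _ _ _ _ ((hAn F hfin).limO S) (hAn F hfin).chi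
  · exact hNL N d F hfin M S hRep (hAn F hfin) _ _ hC (covT hN1 hA hRep TD)
  · exact hRO N d F hfin M S hRep (hAn F hfin) TD hC (hA.sep M S) hOne

end Vale.Agent.P353.Z.ASY
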