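import Vale.Agent.P353.AN.D.Sec
import Vale.Agent.P353.AN.E.All
import Vale.Agent.P353.AN.L.All
import Vale.Agent.P353.AN.L.ZMem
import Vale.Agent.P353.AN.SY.Sys

/-! # P353, all `N`, block SY: the analytic inputs (unconditional, helper667) -/

open MeasureTheory Filter Topology Matrix
open scoped ContDiff

namespace Vale.Agent.P353.Z.ASY

/-- Liouville classification of the strata (blocks E and L) -/
theorem lioAll {d : ℕ} {F : Type*} [NormedAddCommGroup F] [InnerProductSpace ℂ F] (S : Setup d F) (hC : AN.Cless S) :
    AD.LioStmt S :=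
  AL.lioE S (fun _ _ _ _ φ ψ => AE.gLimAll S φ ψ) hC

/-- inner completeness of every centreless setup (block D) -/
theorem icAll {F : Type*} [NormedAddCommGroup F] [InnerProductSpace ℂ F] [FiniteDimensional ℂ F] (d : ℕ) (S : Setup d F)
    (hC : AN.Cless S) : AD.ICStmt S :=
  (AD.icAll (fun _ S' h => lioAll S' h) d S hC).1

/-- outputs of the analytic blocks -/
theorem anaAll (F : Type) [NormedAddCommGroup F] [InnerProductSpace ℂ F] (_ : FiniteDimensional ℂ F) : Ana F where
  rot := fun S => AE.rotOAll S
  iso := fun S => AL.iso S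
  lin := fun S => AL.lin S
  zmem := fun S => AL.zmem S
  ub := fun S => AL.ubAll S
  limO := fun S => AE.limOAll S
  chi := AE.chiS
  ic := fun e T h => icAll e T h

end Vale.Agent.P353.Z.ASY
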