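import Vale.Agent.P353.AN.L.Dat
import Vale.Agent.P353.AN.JN.Om

/-! # P353, all `N`, block SY: data of a stratum with the explicit vacuum bundle (helper667, proof of helper533) -/

open MeasureTheory Filter Topology Matrix
open scoped ContDiff

namespace Vale.Agent.P353.Z.ASY

open Vale.Agent.P353.Z.AJK

universe u

variable {d dh dm r ds : ℕ} {F : Type u} [NormedAddCommGroup F] [InnerProductSpace ℂ F]

open AL.Dat533 in
/-- **L-Dat** with explicit bundle -/
theorem datX (S : Setup d F) (φ : Spl dh dm d) (ψ : Spl r ds dh) (hBun : AX.BunStmt S φ)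
    (hZ : ∀ (e : ℕ) (S' : Setup e F), AL.ZMLStmt S' ∧ AL.ZMFStmt S') (hfin : FiniteDimensional ℂ F)
    (z₀ : Cfg r) (h : AD.Std2 S φ (spsw ψ) z₀) (hIC : AD.ICStmt h.ss)
    (t : Fin r → ℝ) (Kc E : Matrix (Fin dm) (Fin dm) ℝ) (l : Fin dm → Fin r → ℝ) (hRD : RD (AX.Mz S φ (spsw ψ)) t Kc E l) :
    ∃ (n : ℕ) (o : Fin n → Cfg ds → F) (T : Setup r (AL.Ek n)),
      AL.Dat S φ ψ (Finset.univ.image l) (OmE S.κ E l) (S.Kr φ (1 - Complex.I • S.J0 Kc)) (S.UU φ E l) o T := by
  have hB := hBun hfin r (AX.Mz S φ (spsw ψ)) _ Kc E l hRD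
  have hcen : S.IsCen φ ψ := fun a B C => h.cen a B C
  obtain ⟨n, o, ho, hz, hO, hK, hfull⟩ := basis h.ss (hZ ds h.ss).1 (hZ ds h.ss).2 hIC
    (S.Kr φ (1 - Complex.I • S.J0 Kc))
  have hf : ∀ α (A : Fin r) k, ∃ c : Fin n → ℂ, ∀ᵐ s ∂(volume : Measure (Cfg ds)),
      S.th α (φ (Sum.inl (ψ (Sum.inl A)))) (o k s) = ∑ j, c j • o j s := by
    intro α A k
    refine hfull (fun s => S.th α (φ (Sum.inl (ψ (Sum.inl A)))) (o k s)) ?_ ?_
    · refine (hZ ds h.ss).1.2.2.2.2 _ (Or.inr ?_) _ (hz k)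
      intro β B
      have h1 := S.th_anti α (φ (Sum.inl (ψ (Sum.inl A)))) β (φ (Sum.inl (ψ (Sum.inr B))))
      rw [if_neg] at h1
      · exact eq_neg_of_add_eq_zero_left h1
      · simp
    · filter_upwards [hK k] with s hs
      exact hB.K_th α (ψ (Sum.inl A)) _ hs
  have han : ∀ α (A : Fin r) β (B : Fin r), tz (S.th α (φ (Sum.inl (ψ (Sum.inl A))))) o *
      tz (S.th β (φ (Sum.inl (ψ (Sum.inl B))))) o + tz (S.th β (φ (Sum.inl (ψ (Sum.inl B))))) o *
      tz (S.th α (φ (Sum.inl (ψ (Sum.inl A))))) o = (if α = β ∧ A = B then (1 : ℂ) else 0) • 1 := by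
    intro α A β B
    refine tz_anti ho hO (hf α A) (hf β B) _ fun v => ?_
    have h1 := congrArg (fun T : F →L[ℂ] F => T v)
      (S.th_anti α (φ (Sum.inl (ψ (Sum.inl A)))) β (φ (Sum.inl (ψ (Sum.inl B)))))
    have h2 : (α = β ∧ φ (Sum.inl (ψ (Sum.inl A))) = φ (Sum.inl (ψ (Sum.inl B)))) ↔ α = β ∧ A = B := by
      simp
    simp only [h2] at h1
    refine h1.trans ?_
    split_ifs <;> simp
  exact ⟨n, o, TT S (fun α A => S.th α (φ (Sum.inl (ψ (Sum.inl A))))) o (fun α A => S.th_sa α _) han,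
    { sub := h.std.sub
      cen := hcen
      bun := hB
      mem := ho
      zm := hz
      ort := hO
      val := hK
      gam := rfl
      thT := by
        intro α A k
        filter_upwards [tz_ae ho hO (hf α A) k] with s hs
        rw [hs]
        refine Finset.sum_congr rfl fun j _ => ?_
        congr 1
        simp [TT]
      full := hfull }⟩

end Vale.Agent.P353.Z.ASY
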