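import Vale.Agent.P353.AN.SY.Defs
import Vale.Agent.P353.AN.JN.StmtD
import Vale.Agent.P353.AN.SY.DatX
import Vale.Agent.P353.AN.X.All

/-! # P353, all `N`, block SY: the family of types of a model (helper667)

`TyD M S n` = frame of type `n` together with the data of the stratum; `TyD.ty` = the corresponding `AJK.Ty` (all fields by `rfl`). The
concrete system is `pwT … (fun p : Typ N => (TD p).ty)`. -/

open MeasureTheory Filter Topology Matrix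
open scoped ContDiff

namespace Vale.Agent.P353.Z

lemma spsw_spsw {r ds dh : ℕ} (ψ : Spl r ds dh) : spsw (spsw ψ) = ψ := by
  refine Equiv.ext fun x => ?_
  rcases x with x | x <;> rfl

namespace ASY

open Vale.Agent.P353.Z.AJK

variable {N d k : ℕ} {F : Type} [NormedAddCommGroup F] [InnerProductSpace ℂ F]

/-- frame with the data of the stratum (explicit vacuum bundle) -/
structure TyD (M : BFSS.Model N d F) (S : Setup d F) (n : Fin k → ℕ) where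
  D : FrM M S n
  z₀ : Cfg D.dz
  std : AD.Std2 D.S' D.φ D.ψ z₀
  pos : 0 < D.dm
  t : Fin D.dz → ℝ
  Kc : Matrix (Fin D.dm) (Fin D.dm) ℝ
  E : Matrix (Fin D.dm) (Fin D.dm) ℝ
  l : Fin D.dm → Fin D.dz → ℝ
  rd : RD (AX.Mz D.S' D.φ D.ψ) t Kc E l
  nn : ℕ
  o : Fin nn → Cfg D.ds → F
  T : Setup D.dz (AL.Ek nn)
  dat : AL.Dat D.S' D.φ (spsw D.ψ) (Finset.univ.image l) (OmE D.S'.κ E l) (D.S'.Kr D.φ (1 - Complex.I • D.S'.J0 Kc))
    (D.S'.UU D.φ E l) o T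
  Ω : AL.Ek nn
  Ω_norm : ‖Ω‖ = 1
  Ω_am : ∀ A α, T.amF A α Ω = 0
  Ω_one : ∀ w : AL.Ek nn, (∀ A α, T.amF A α w = 0) → ∃ c : ℂ, w = c • Ω

/-- the type of the weak profile system -/
noncomputable def TyD.ty {M : BFSS.Model N d F} {S : Setup d F} {n : Fin k → ℕ} (t : TyD M S n) : Ty S where
  O := t.D.O
  hO := t.D.hO
  dh := t.D.dh
  dm := t.D.dm
  r := t.D.dz
  ds := t.D.ds
  n := t.nn
  φ := t.D.φ
  ψ := spsw t.D.ψ
  z₀ := t.z₀
  std := by
    rw [spsw_spsw]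
    exact t.std
  pos := t.pos
  L := Finset.univ.image t.l
  Om := OmE t.D.S'.κ t.E t.l
  K := t.D.S'.Kr t.D.φ (1 - Complex.I • t.D.S'.J0 t.Kc)
  U := t.D.S'.UU t.D.φ t.E t.l
  o := t.o
  T := t.T
  dat := t.dat
  Ω := t.Ω
  Ω_norm := t.Ω_norm
  Ω_am := t.Ω_am
  Ω_one := t.Ω_one

/-- the internal ground state (vacuum vector of the module of zero modes) -/
noncomputable def TyD.w0 {M : BFSS.Model N d F} {S : Setup d F} {n : Fin k → ℕ} (t : TyD M S n) (s : Cfg t.D.ds) : F :=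
  ∑ j, t.Ω j • t.o j s

/-- regular points of the stratum: different blocks have different values -/
def FrM.Rgv {M : BFSS.Model N d F} {S : Setup d F} {n : Fin k → ℕ} (D : FrM M S n) (η : Cfg D.dz) : Prop :=
  ∀ a b, a ≠ b → ∃ i : Fin 9, D.fr.val η i a ≠ D.fr.val η i b

/-- outputs of the algebraic blocks -/
structure Alg : Prop where
  ex : ANF.ExStmt
  rotM : ANF.RotMStmt.{0}
  basM : ANF.BasMStmt.{0}
  val : ∀ {N d dh dm ds dz k : ℕ} {n : Fin k → ℕ} {T : Fin d → Matrix (Fin N) (Fin N) ℂ} {φ : Spl dh dm d} {ψ : Spl ds dz dh}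
    (f : Fin d → Fin d → Fin d → ℝ) (fr : NFr n T φ ψ), ANF.ValStmt f fr
  reg : ∀ {N d dh dm ds dz k : ℕ} {n : Fin k → ℕ} {T : Fin d → Matrix (Fin N) (Fin N) ℂ} {φ : Spl dh dm d} {ψ : Spl ds dz dh}
    {F : Type} [NormedAddCommGroup F] [InnerProductSpace ℂ F] (S : Setup d F) (fr : NFr n T φ ψ), ANF.RegStmt S fr
  std : ∀ {N d dh dm ds dz k : ℕ} {n : Fin k → ℕ} {T : Fin d → Matrix (Fin N) (Fin N) ℂ} {φ : Spl dh dm d} {ψ : Spl ds dz dh}
    {F : Type} [NormedAddCommGroup F] [InnerProductSpace ℂ F] (S : Setup d F) (fr : NFr n T φ ψ), ANF.StdStmt S fr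
  one : ∀ {N d dh dm ds dz k : ℕ} {n : Fin k → ℕ} {T : Fin d → Matrix (Fin N) (Fin N) ℂ} {φ : Spl dh dm d} {ψ : Spl ds dz dh}
    {F : Type} [NormedAddCommGroup F] [InnerProductSpace ℂ F] (S : Setup d F) (fr : NFr n T φ ψ), ANF.OneStmt S fr
  ih : AX2.IHStmt.{0}
  prod : AX2.ProdStmt.{0}
  zero : AX2.ZeroStmt.{0}
  x2 : AX2.X2Stmt.{0}
  zms : ∀ {d : ℕ} {F : Type} [NormedAddCommGroup F] [InnerProductSpace ℂ F] (S : Setup d F), AX2.ZmsStmt S
  cnt : CntStmt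
  frs : ∀ {N d : ℕ} {F : Type} [NormedAddCommGroup F] [InnerProductSpace ℂ F] (M : BFSS.Model N d F) (S : Setup d F), FrStmt M S
  pt : ∀ {N d : ℕ} {F : Type} [NormedAddCommGroup F] [InnerProductSpace ℂ F] (M : BFSS.Model N d F) (S : Setup d F), PtStmt M S
  cov : ∀ {N d : ℕ} {F : Type} [NormedAddCommGroup F] [InnerProductSpace ℂ F] (M : BFSS.Model N d F) (S : Setup d F), CovStmt M S
  sep : ∀ {N d : ℕ} {F : Type} [NormedAddCommGroup F] [InnerProductSpace ℂ F] (M : BFSS.Model N d F) (S : Setup d F), SepStmt M S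

variable {M : BFSS.Model N d F} {S : Setup d F} {n : Fin k → ℕ}

lemma rot_irr (hI : S.Irr) (O : Matrix (Fin d) (Fin d) ℝ) (hO : O * O.transpose = 1) : (S.rot 1 h91 O hO).Irr := by
  intro W hW
  refine hI W fun α A v hv => ?_
  have h1 : S.th α A = ∑ B, ((O B A : ℝ) : ℂ) • (S.rot 1 h91 O hO).th α B := by
    change S.th α A = ∑ B, ((O B A : ℝ) : ℂ) • ∑ C, ((O B C : ℝ) : ℂ) • S.th α C
    have ho := AN.rt_orthc hO
    exact (AN.rt_one (K := ℂ) (fun A B => ((O A B : ℝ) : ℂ)) (fun k l => ho k l) A fun C => S.th α C).symm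
  rw [h1, _root_.sum_apply]
  exact W.sum_mem fun B _ => W.smul_mem _ (hW α B v hv)

/-- **the family exists** -/
theorem exTyD (hfin : FiniteDimensional ℂ F) (hA : Alg) (hIC : ∀ (e : ℕ) (T : Setup e F), AN.Cless T → AD.ICStmt T) (hRep : U.Rep M S) (hirr : S.Irr) (hne : ∃ v : F, v ≠ 0)
    (hk : 2 ≤ k) (hn : ∀ a, 1 ≤ n a) (hs : ∑ a, n a = N) (IH : ∀ a, IHM.{0} (n a)) :
    Nonempty (TyD M S n) := by
  obtain ⟨D⟩ := hA.frs M S hA.ex hA.rotM hA.basM hRep k n hk hn hs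
  obtain ⟨hpos, ⟨z₀, hstd⟩, -⟩ := hA.pt M S k n D (hA.val _ _) (hA.reg _ _) (hA.std _ _) hA.basM
  have hbas : Bas N d D.M'.T D.S'.f := by
    have h := hA.basM N d F D.M'
    rw [← D.rep.hf] at h
    exact h
  have hone : OneA.{0} 1 hstd.ss.f := hA.one D.S' D.fr hbas hA.ih hA.prod hA.zero IH z₀ hstd
  have hstd' : AD.Std2 D.S' D.φ (spsw (spsw D.ψ)) z₀ := by
    rw [spsw_spsw]
    exact hstd
  have hss : hstd'.ss.f = hstd.ss.f := rfl
  have hκ : D.S'.κ = 1 := D.rep.hκ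
  obtain ⟨Kc, E, l, hrd⟩ := AX.root D.dz D.dm (AX.Mz D.S' D.φ (spsw (spsw D.ψ))) _ (AX.tor_Mz hstd')
  obtain ⟨nn, o, T, hd⟩ := datX D.S' D.φ (spsw D.ψ) (AX.bunAll _ _) (fun e S' => ⟨AL.zml S', AL.zmf S'⟩) hfin z₀ hstd'
    (hIC _ _ hstd'.less) _ Kc E l hrd
  obtain ⟨hZ, ho⟩ := hA.x2 d D.dh D.dm D.ds D.dz F hfin D.S' D.φ (spsw (spsw D.ψ)) z₀ hstd' (rot_irr hirr _ _) hne _ _ _ _
    hd.bun (by rw [hκ, hss]; exact hone)
  obtain ⟨Ω, h1, h2, h3⟩ := omega hd hstd' (hA.zms _) hZ ho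
  exact ⟨⟨D, z₀, hstd, hpos, _, Kc, E, l, hrd, nn, o, T, hd, Ω, h1, h2, h3⟩⟩

/-- the internal ground state is a zero mode with values in the vacuum of the centre fermions -/
theorem w0_mem (t : TyD M S n) (hZms : AX2.ZmsStmt t.std.ss) :
    ∃ h0 : MemLp t.w0 2 (volume : Measure (Cfg t.D.ds)), h0.toLp t.w0 ∈
      t.std.ss.zms (vca (AX2.czs t.std) (t.D.S'.Kr t.D.φ (1 - Complex.I • t.D.S'.J0 t.Kc))) ∧
      ∫ s, ‖t.w0 s‖ ^ 2 = 1 := by
  have hd := t.dat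
  have h0 : MemLp t.w0 2 (volume : Measure (Cfg t.D.ds)) := memLp_finsetSum _ fun j _ => (hd.mem j).const_smul (t.Ω j)
  obtain ⟨hadd, hsm, hcg, -, -⟩ := AL.zml (t.D.S'.int t.D.φ (spsw t.D.ψ) hd.sub hd.cen)
  have hzm : AD.ZM (t.D.S'.int t.D.φ (spsw t.D.ψ) hd.sub hd.cen) t.w0 :=
    AL.Dat533.zm_sum (AL.zml _) Finset.univ t.o (fun j => t.Ω j) hd.zm
  have hss : t.D.S'.int t.D.φ (spsw t.D.ψ) hd.sub hd.cen = t.std.ss := rfl
  have hstd' : AD.Std2 t.D.S' t.D.φ (spsw (spsw t.D.ψ)) t.z₀ := by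
    rw [spsw_spsw]
    exact t.std
  refine ⟨h0, (hZms _ _).2 ⟨(isZM_iff _ _).2 ?_, ?_⟩, ?_⟩
  · rw [← hss]
    exact hcg _ _ hzm h0.coeFn_toLp
  · have hval : ∀ᵐ s ∂(volume : Measure (Cfg t.D.ds)), ∀ j, t.o j s ∈ t.D.S'.Kr t.D.φ (1 - Complex.I • t.D.S'.J0 t.Kc) :=
      eventually_countable_forall.2 fun j => hd.val j
    have ham : ∀ᵐ s ∂(volume : Measure (Cfg t.D.ds)), ∀ A α, (AX2.czs hstd').amF A α (t.w0 s) = 0 := by
      refine ae_all_iff.2 fun A => ae_all_iff.2 fun α => ?_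
      filter_upwards [am_act hd hstd' α A t.Ω] with s hs
      rw [show t.w0 s = ∑ k, t.Ω k • t.o k s from rfl, hs, t.Ω_am]
      simp
    filter_upwards [h0.coeFn_toLp, hval, ham] with s e1 e2 e3
    rw [e1]
    refine ⟨Submodule.sum_mem _ fun j _ => Submodule.smul_mem _ _ (e2 j), fun A α => e3 A α⟩
  · have hin : ∫ s, inner ℂ (t.w0 s) (t.w0 s) = inner ℂ t.Ω t.Ω := by
      simp only [TyD.w0, sum_inner, inner_smul_left]
      rw [integral_finsetSum _ fun k _ => ?_]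
      · have h2 : ∀ i, ∫ x, (starRingEnd ℂ) (t.Ω i) * inner ℂ (t.o i x) (∑ j, t.Ω j • t.o j x) =
            (starRingEnd ℂ) (t.Ω i) * t.Ω i := by
          intro i
          rw [integral_const_mul, AL.Dat533.coef hd.mem hd.ort (ae_of_all _ fun _ => rfl)]
        simp only [h2, PiLp.inner_apply, RCLike.inner_apply]
        exact Finset.sum_congr rfl fun i _ => mul_comm _ _
      · exact Integrable.const_mul (integrable_inner_memLp (hd.mem k) h0) _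
    have h3 : (∫ s, inner ℂ (t.w0 s) (t.w0 s)) = ((∫ s, ‖t.w0 s‖ ^ 2 : ℝ) : ℂ) := by
      rw [← integral_complex_ofReal]
      refine integral_congr_ae (ae_of_all _ fun x => ?_)
      change inner ℂ (t.w0 x) (t.w0 x) = ((‖t.w0 x‖ ^ 2 : ℝ) : ℂ)
      rw [inner_self_eq_norm_sq_to_K]
      push_cast
      rfl
    rw [h3, inner_self_eq_norm_sq_to_K, t.Ω_norm] at hin
    have h4 : ((∫ s, ‖t.w0 s‖ ^ 2 : ℝ) : ℂ) = ((1 : ℝ) : ℂ) := by
      rw [hin]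
      simp
    exact Complex.ofReal_injective h4

end ASY

end Vale.Agent.P353.Z
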