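import Vale.Agent.P353.AN.JN.PWf
import Vale.Agent.P353.AN.F.Gss
import Vale.Agent.P353.AN.G.Defs
import Vale.Agent.P353.AN.H.S7a

/-! # P353, all `N`, block SY: truncated ground states of a type (helper667) -/

open MeasureTheory Filter Topology Matrix
open scoped ContDiff ENNReal

namespace Vale.Agent.P353.Z.AJK

variable {d : ℕ} {F : Type*} [NormedAddCommGroup F] [InnerProductSpace ℂ F] {S : Setup d F} (t : Ty S)

/-- normalisation of the ground state -/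
noncomputable def lwcN : ℝ := (‖(gcl t.Ω : HL t.r (AL.Ek t.n))‖)⁻¹

lemma lwcN_pos : 0 < lwcN t := inv_pos.2 (norm_pos_iff.2 (gcl_ne (Ω_ne t)))

/-- truncated ground state -/
noncomputable def lwcF (χ : Cfg t.r → ℝ) (η : Cfg t.r) : AL.Ek t.n := ((lwcN t * (χ η * gss η) : ℝ) : ℂ) • t.Ω

lemma lwc_supp (χ : Cfg t.r → ℝ) : tsupport (lwcF t χ) ⊆ tsupport χ := by
  refine closure_mono fun η hη h0 => hη ?_
  simp only [lwcF, h0, zero_mul, mul_zero, Complex.ofReal_zero, zero_smul]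

lemma lwc_tst {χ : Cfg t.r → ℝ} (h1 : ContDiff ℝ ∞ χ) (h2 : HasCompactSupport χ) (h3 : Disjoint (tsupport χ) (Coll t.L)) :
    TstOff t.L (lwcF t χ) := by
  refine ⟨⟨?_, ?_⟩, h3.mono_left (lwc_supp t χ)⟩
  · exact (Setup.contDiff_ofReal (contDiff_const.mul (h1.mul AF.contDiff_gss))).smul contDiff_const
  · exact h2.of_isClosed_subset (isClosed_tsupport _) (lwc_supp t χ)

lemma lwc_norm {χ : Cfg t.r → ℝ} (h : TstOff t.L (lwcF t χ)) :
    ‖((cl (lwcF t χ) h : DL t.r (AL.Ek t.n) t.L) : HL t.r (AL.Ek t.n)) - gT t‖ ^ 2 =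
      lwcN t ^ 2 * ∫ η : Cfg t.r, (1 - χ η) ^ 2 * gss η ^ 2 := by
  rw [norm_sq_eq]
  unfold nsq
  rw [← integral_const_mul]
  refine integral_congr_ae ?_
  have hg : gT t = (gcl ((lwcN t : ℂ) • t.Ω) : HL t.r (AL.Ek t.n)) := rfl
  filter_upwards [cl_ae (lwcF t χ) h, gcl_ae (r := t.r) ((lwcN t : ℂ) • t.Ω),
    Lp.coeFn_sub ((cl (lwcF t χ) h : DL t.r (AL.Ek t.n) t.L) : HL t.r (AL.Ek t.n)) (gT t)] with η h1 h2 h3
  rw [h3, Pi.sub_apply, h1, hg, h2, lwcF, smul_smul, ← sub_smul, norm_smul, t.Ω_norm, mul_one]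
  have e : ((lwcN t * (χ η * gss η) : ℝ) : ℂ) - (gss η : ℂ) * (lwcN t : ℂ) =
      ((-(lwcN t * ((1 - χ η) * gss η)) : ℝ) : ℂ) := by
    push_cast
    ring
  rw [e, Complex.norm_real, Real.norm_eq_abs, sq_abs]
  ring

lemma lwc_sc (χ : Cfg t.r → ℝ) (η : Cfg t.r) (s : Cfg t.ds) :
    AL.sc t.U t.o (lwcF t χ) η s = ((lwcN t * (χ η * gss η) : ℝ) : ℂ) • t.U η (∑ j, t.Ω j • t.o j s) := by
  unfold AL.sc lwcF
  rw [map_sum, Finset.smul_sum]
  refine Finset.sum_congr rfl fun j _ => ?_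
  rw [map_smul, smul_smul]
  rfl

lemma lwc_bG {r ds dm : ℕ} (κ c : ℝ) (Om : Cfg r → Matrix (Fin dm) (Fin dm) ℝ) (g : Cfg r → ℝ) (V : Cfg r → Cfg ds → F)
    (q : Cfg r × Cfg ds × Cfg dm) :
    AN.bG κ Om (fun η s => ((c * g η : ℝ) : ℂ) • V η s) q = (c : ℂ) • AN.bG κ Om (fun η s => ((g η : ℝ) : ℂ) • V η s) q := by
  simp only [AN.bG, smul_smul]
  congr 1
  push_cast
  ring

/-- scaling of the profile of LOW9 -/
lemma lwc_eL {r ds dm : ℕ} {κ c : ℝ} (hc : 0 ≤ c) (Om : Cfg r → Matrix (Fin dm) (Fin dm) ℝ) (g : Cfg r → ℝ)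
    (V : Cfg r → Cfg ds → F) {b : Cfg r × Cfg ds × Cfg dm → F} {e : ℝ} (_ : 0 ≤ e)
    (h : eLpNorm (fun q => b q - AN.bG κ Om (fun η s => ((g η : ℝ) : ℂ) • V η s) q) 2 (AN.wM r ds dm) ≤ ENNReal.ofReal e) :
    eLpNorm (fun q => (c : ℂ) • b q - AN.bG κ Om (fun η s => ((c * g η : ℝ) : ℂ) • V η s) q) 2 (AN.wM r ds dm) ≤
      ENNReal.ofReal (c * e) := by
  have e1 : (fun q => (c : ℂ) • b q - AN.bG κ Om (fun η s => ((c * g η : ℝ) : ℂ) • V η s) q) =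
      (c : ℂ) • fun q => b q - AN.bG κ Om (fun η s => ((g η : ℝ) : ℂ) • V η s) q := by
    funext q
    rw [lwc_bG, ← smul_sub]
    rfl
  rw [e1, eLpNorm_const_smul, ENNReal.ofReal_mul hc]
  refine mul_le_mul' (le_of_eq ?_) h
  rw [← ofReal_norm, Complex.norm_real, Real.norm_of_nonneg hc]

lemma lwc_avg {N d : ℕ} {F : Type*} [NormedAddCommGroup F] [InnerProductSpace ℂ F] {dh dm r ds : ℕ} (M : BFSS.Model N d F)
    (φ : Spl dh dm d) (ψ : Spl r ds dh) (b : Cfg r × Cfg ds × Cfg dm → F) (c R : ℝ) :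
    nsq (AN.G.avg M (AN.Zb φ ψ (fun q => (c : ℂ) • b q) R)) = c ^ 2 * nsq (AN.G.avg M (AN.Zb φ ψ b R)) := by
  have e1 : AN.G.avg M (AN.Zb φ ψ (fun q => (c : ℂ) • b q) R) = fun x => (c : ℂ) • AN.G.avg M (AN.Zb φ ψ b R) x := by
    funext x
    unfold AN.G.avg
    rw [← integral_smul]
    refine integral_congr_ae (ae_of_all _ fun U => ?_)
    simp only [AN.Zb]
    rw [smul_comm, map_smul]
  rw [e1, AH.nsq_csmul, Complex.norm_real, Real.norm_eq_abs, sq_abs]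

end Vale.Agent.P353.Z.AJK
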