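import Vale.Agent.P353.AN.REP.All
import Vale.Agent.P353.AN.LOW.Scl

/-! # P353, all `N`: lower bound for the averages of smooth profiles (helper647) -/

open MeasureTheory Filter Topology
open scoped ContDiff Manifold ENNReal

namespace Vale.Agent.P353.AN.LWT

open Vale.Agent.P353.Z Vale.Agent.P353.Z.U Vale.Agent.P353.Z.AN Vale.Agent.P353.AN.G Vale.Agent.P353.AN.REP

variable {N d dh dm r ds : ℕ} {F : Type*} [NormedAddCommGroup F] [InnerProductSpace ℂ F]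

/-- approximation by smooth profiles with a common compact support -/
lemma lwt_apx (S : Setup d F) (φ : Spl dh dm d) (ψ : Spz r ds dh) {b : Cfg r × Cfg ds × Cfg dm → F} (hb : Continuous b)
    (hbs : HasCompactSupport b) (L : Set (Cfg r)) (hL : ∀ q ∈ tsupport b, q.1 ∈ interior L) (hLR : L ⊆ Reg S φ ψ) :
    ∃ Q : Set (Cfg r × Cfg ds × Cfg dm), IsCompact Q ∧ (∀ q ∈ Q, q.1 ∈ L) ∧ ∀ ε : ℝ, 0 < ε → ∃ β, IsB S φ ψ β ∧
      (∀ q, β q ≠ 0 → q ∈ Q) ∧ eLpNorm (fun q => β q - b q) 2 (wM r ds dm) ≤ ENNReal.ofReal ε := by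
  have := rx_lf r ds dm
  have hU : IsOpen {q : Cfg r × Cfg ds × Cfg dm | q.1 ∈ interior L} := isOpen_interior.preimage continuous_fst
  obtain ⟨Q, hQ, hbQ, hQU⟩ := exists_compact_between hbs.isCompact hU hL
  obtain ⟨χ, hχ0, hχ1, hχ⟩ := exists_contMDiffMap_zero_one_of_isClosed (n := ⊤) 𝓘(ℝ, Cfg r × Cfg ds × Cfg dm)
    (isOpen_interior (s := Q)).isClosed_compl hbs.isCompact.isClosed
    (Set.disjoint_left.2 fun x hx hx' => hx (hbQ hx'))
  have hχs : ContDiff ℝ ∞ (χ : Cfg r × Cfg ds × Cfg dm → ℝ) := χ.contMDiff.contDiff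
  refine ⟨Q, hQ, fun q hq => interior_subset (hQU hq), fun ε hε => ?_⟩
  have hbm : MemLp b 2 (wM r ds dm) := hb.memLp_of_hasCompactSupport hbs
  obtain ⟨g, hg1, hg2, hg3⟩ := hbm.exist_eLpNorm_sub_le (by norm_num) (by norm_num) hε
  have hsupp : ∀ q : Cfg r × Cfg ds × Cfg dm, χ q • g q ≠ 0 → q ∈ Q := by
    intro q hq
    by_contra hn
    refine hq ?_
    have h1 : q ∉ interior Q := fun h => hn (interior_subset h)
    have h2 : χ q = 0 := hχ0 h1
    rw [h2, zero_smul]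
  refine ⟨fun q => χ q • g q, ⟨hχs.smul hg2, hg1.smul_left, fun q hq => ?_⟩, hsupp, ?_⟩
  · have h1 : q ∈ Q := closure_minimal (fun p hp => hsupp p hp) hQ.isClosed hq
    exact hLR (interior_subset (hQU h1))
  · refine le_trans (eLpNorm_mono (g := b - g) fun q => ?_) hg3
    have h1 : χ q • b q = b q := by
      by_cases h : b q = 0
      · simp [h]
      · rw [show χ q = 1 from hχ1 (subset_tsupport _ h), one_smul]
    have h2 : χ q • g q - b q = χ q • (g q - b q) := by rw [smul_sub, h1]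
    rw [h2, norm_smul, Pi.sub_apply, norm_sub_rev (b q)]
    refine mul_le_of_le_one_left (norm_nonneg _) ?_
    rw [Real.norm_eq_abs, abs_le]
    exact ⟨by linarith [(hχ q).1], (hχ q).2⟩

lemma lwt_nrm {f : Cfg d → F} (hf : MemLp f 2 (volume : Measure (Cfg d))) :
    eLpNorm f 2 (volume : Measure (Cfg d)) = ENNReal.ofReal (Real.sqrt (nsq f)) := by
  have h2 := glu_real_sq hf
  have h5 : (eLpNorm f 2 (volume : Measure (Cfg d))).toReal ^ 2 = nsq f := by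
    rw [← ENNReal.toReal_pow, ← h2]
    exact ENNReal.toReal_ofReal (nsq_nonneg f)
  rw [← h5, Real.sqrt_sq ENNReal.toReal_nonneg, ENNReal.ofReal_toReal hf.2.ne]

/-- Cauchy–Schwarz -/
lemma lwt_cs {f g : Cfg d → F} (hf : MemLp f 2 (volume : Measure (Cfg d))) (hg : MemLp g 2 (volume : Measure (Cfg d))) :
    ‖∫ x, (inner ℂ (f x) (g x) : ℂ)‖ ≤ Real.sqrt (nsq f) * Real.sqrt (nsq g) := by
  have h1 := glu_cs (μ := (volume : Measure (Cfg d))) hf.1 hg.1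
  rw [lwt_nrm hf, lwt_nrm hg, ← ENNReal.ofReal_mul (Real.sqrt_nonneg _), ← ofReal_norm] at h1
  exact (ENNReal.ofReal_le_ofReal_iff (by positivity)).1 h1

lemma lwt_self (f : Cfg d → F) : (∫ x, (inner ℂ (f x) (f x) : ℂ)) = ((nsq f : ℝ) : ℂ) := by
  unfold nsq
  rw [← integral_complex_ofReal]
  refine integral_congr_ae (Eventually.of_forall fun x => ?_)
  show inner ℂ (f x) (f x) = ((‖f x‖ ^ 2 : ℝ) : ℂ)
  rw [inner_self_eq_norm_sq_to_K]
  push_cast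
  rfl

lemma lwt_avg_cont [FiniteDimensional ℂ F] (M : BFSS.Model N d F) {f : Cfg d → F} (hf : Continuous f) : Continuous (avg M f) := by
  have h := AvgG.tr_cont M (act_stmt M) hf
  have h1 : Continuous (Function.uncurry fun (x : Cfg d) (U : BFSS.SU N) => M.S U (f (M.act U⁻¹ x))) :=
    h.comp (continuous_snd.prodMk continuous_fst)
  have h2 := continuous_parametric_integral_of_continuous (μ := hm N) h1 isCompact_univ
  simp only [Measure.restrict_univ] at h2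
  exact h2

lemma lwt_avg_cs (M : BFSS.Model N d F) {f : Cfg d → F} (hf : HasCompactSupport f) : HasCompactSupport (avg M f) := by
  obtain ⟨ρ, hρ⟩ := hf.isCompact.isBounded.subset_closedBall (0 : Cfg d)
  refine HasCompactSupport.intro (isCompact_closedBall (0 : Cfg d) ρ) fun x hx => ?_
  unfold avg
  have h1 : ∀ U : BFSS.SU N, M.S U (f (M.act U⁻¹ x)) = 0 := by
    intro U
    have h2 : f (M.act U⁻¹ x) = 0 := by
      by_contra hne
      have h3 := hρ (subset_tsupport _ hne)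
      rw [mem_closedBall_zero_iff, (act_stmt M).2.2.2.2.1 U⁻¹ x] at h3
      exact hx (mem_closedBall_zero_iff.2 h3)
    rw [h2, map_zero]
  simp [h1]

lemma lwt_le_of_sq {w f : ℝ} (hw : 0 ≤ w) (hf : 0 ≤ f) (h : w ≤ Real.sqrt w * f) : w ≤ f ^ 2 := by
  have h1 := Real.sqrt_nonneg w
  have h2 := Real.sq_sqrt hw
  by_cases h0 : Real.sqrt w = 0
  · rw [h0, zero_mul] at h
    exact h.trans (sq_nonneg f)
  · have h3 : 0 < Real.sqrt w := lt_of_le_of_ne h1 (Ne.symm h0)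
    have h4 : Real.sqrt w ≤ f := by
      have h5 : Real.sqrt w * Real.sqrt w ≤ Real.sqrt w * f := by nlinarith
      exact le_of_mul_le_mul_left h5 h3
    nlinarith

/-- averages are contractions in `L²` -/
lemma lwt_avg_le [FiniteDimensional ℂ F] (M : BFSS.Model N d F) {f : Cfg d → F} (hf : Continuous f) (hfs : HasCompactSupport f) :
    nsq (avg M f) ≤ nsq f := by
  have hc := lwt_avg_cont M hf
  have hs := lwt_avg_cs M hfs
  have h1 := ipr_pair M (act_stmt M) hf hc hs (fun U x => avgC_act M (act_stmt M) f U x)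
  rw [lwt_self] at h1
  have h2 := lwt_cs (hc.memLp_of_hasCompactSupport (p := 2) (μ := (volume : Measure (Cfg d))) hs)
    (hf.memLp_of_hasCompactSupport (p := 2) (μ := (volume : Measure (Cfg d))) hfs)
  rw [← h1, Complex.norm_real, Real.norm_eq_abs, abs_of_nonneg (nsq_nonneg _)] at h2
  have h3 := lwt_le_of_sq (nsq_nonneg (avg M f)) (Real.sqrt_nonneg _) h2
  rwa [Real.sq_sqrt (nsq_nonneg f)] at h3

/-- the uniform bound over `L` -/
def GKc (S : Setup d F) (φ : Spl dh dm d) (ψ : Spz r ds dh) (L : Set (Cfg r)) (δ C R₁ : ℝ) : Prop :=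
  ∀ R : ℝ, R₁ ≤ R → ∀ b : Cfg r × Cfg ds × Cfg dm → F, StronglyMeasurable b →
  (∀ q, b q ≠ 0 → q.1 ∈ L ∧ ‖q.2.1‖ ≤ δ * R ∧ ‖q.2.2‖ ≤ δ * (R * Real.sqrt R)) → MemLp b 2 (wM r ds dm) →
  ∀ u : Cfg d → F, Setup.Tst u → (∀ C x, S.G C u x = 0) →
    ‖∫ x, inner ℂ (Zb φ ψ b R x) (u x)‖ₑ ≤ ENNReal.ofReal C * eLpNorm b 2 (wM r ds dm) * eLpNorm u 2 volume

/-- real form -/
lemma lwt_gk {S : Setup d F} {φ : Spl dh dm d} {ψ : Spz r ds dh} {L : Set (Cfg r)} {δ C R₁ : ℝ} (hC : 0 < C)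
    (hK : GKc S φ ψ L δ C R₁) {R : ℝ} (hR : R₁ ≤ R) {b : Cfg r × Cfg ds × Cfg dm → F} (hb : StronglyMeasurable b)
    (hs : ∀ q, b q ≠ 0 → q.1 ∈ L ∧ ‖q.2.1‖ ≤ δ * R ∧ ‖q.2.2‖ ≤ δ * (R * Real.sqrt R)) {B : ℝ} (hB : 0 ≤ B)
    (hn : eLpNorm b 2 (wM r ds dm) ≤ ENNReal.ofReal B) {u : Cfg d → F} (hu : S.GInv u) :
    ‖ipr (Zb φ ψ b R) u‖ ≤ C * B * Real.sqrt (nsq u) := by
  have h := hK R hR b hb hs ⟨hb.aestronglyMeasurable, lt_of_le_of_lt hn ENNReal.ofReal_lt_top⟩ u hu.1 hu.2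
  rw [lwt_nrm hu.1.memLp, ← ofReal_norm] at h
  have h2 : ENNReal.ofReal C * eLpNorm b 2 (wM r ds dm) * ENNReal.ofReal (Real.sqrt (nsq u)) ≤
      ENNReal.ofReal (C * B * Real.sqrt (nsq u)) := by
    rw [ENNReal.ofReal_mul (by positivity), ENNReal.ofReal_mul hC.le]
    gcongr
  exact (ENNReal.ofReal_le_ofReal_iff (by positivity)).1 (h.trans h2)

/-- averages of smooth profiles are bounded by the weighted norm -/
lemma lwt_up (M : BFSS.Model N d F) (hF : FiniteDimensional ℂ F) {S : Setup d F} (hM : Rep M S) {φ : Spl dh dm d}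
    {ψ : Spz r ds dh} {L : Set (Cfg r)} {δ C R₁ : ℝ} (hC : 0 < C)
    (hK : GKc S φ ψ L δ C R₁) {R : ℝ} (hR0 : 0 < R) (hR : R₁ ≤ R) {b : Cfg r × Cfg ds × Cfg dm → F} (hb : IsB S φ ψ b)
    (hs : ∀ q, b q ≠ 0 → q.1 ∈ L ∧ ‖q.2.1‖ ≤ δ * R ∧ ‖q.2.2‖ ≤ δ * (R * Real.sqrt R)) {B : ℝ} (hB : 0 ≤ B)
    (hn : eLpNorm b 2 (wM r ds dm) ≤ ENNReal.ofReal B) : nsq (avg M (Zb φ ψ b R)) ≤ (C * B) ^ 2 := by
  obtain ⟨h1, h2⟩ := REP.All.ipr M hF S hM (Zb φ ψ b R) (ob_tst φ ψ b hb.sm hb.cs R hR0)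
  have h3 := lwt_gk hC hK hR hb.sm.continuous.stronglyMeasurable hs hB hn h1
  rw [← h2 _ h1] at h3
  have h4 : ipr (avg M (Zb φ ψ b R)) (avg M (Zb φ ψ b R)) = ((nsq (avg M (Zb φ ψ b R)) : ℝ) : ℂ) := lwt_self _
  rw [h4, Complex.norm_real, Real.norm_eq_abs, abs_of_nonneg (nsq_nonneg _)] at h3
  exact lwt_le_of_sq (nsq_nonneg _) (by positivity) (by linarith)

/-- scaling at fixed `R` -/
lemma lwt_scale (φ : Spl dh dm d) (ψ : Spz r ds dh) {R : ℝ} (hR : 0 < R) : ∃ c : ℝ, 0 ≤ c ∧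
    ∀ f : Cfg r × Cfg ds × Cfg dm → F, StronglyMeasurable f → ∀ B : ℝ, 0 ≤ B → eLpNorm f 2 (wM r ds dm) ≤ ENNReal.ofReal B →
      nsq (Zb φ ψ f R) ≤ c * B ^ 2 := by
  obtain ⟨-, h, -⟩ := LW.scl d dh dm r ds φ ψ R hR
  set p : ℝ := R ^ (3 * (dm : ℝ) - 9 * (r : ℝ) / 2) with hp
  have hp0 : 0 < p := Real.rpow_pos_of_pos hR _
  set q : ℝ := R ^ (9 * (r : ℝ) - 9 * (dm : ℝ) / 2) with hq
  have hq0 : 0 < q := Real.rpow_pos_of_pos hR _
  refine ⟨p ^ 2 * q, by positivity, fun f hf B hB hn => ?_⟩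
  have hfm : MemLp f 2 (wM r ds dm) := ⟨hf.aestronglyMeasurable, lt_of_le_of_lt hn ENNReal.ofReal_lt_top⟩
  have hz := glu_real_sq (glu_memLp φ ψ R hR (hfm.mono_measure (glu_w_le r ds dm)))
  rw [← glu_sq] at hz
  have h1 : ∫⁻ x, ‖Zb φ ψ f R x‖ₑ ^ 2 = ENNReal.ofReal (p ^ 2) * ∫⁻ x, ‖f (LW.sc φ ψ R x)‖ₑ ^ 2 := by
    rw [← lintegral_const_mul' _ _ ENNReal.ofReal_ne_top]
    refine lintegral_congr fun x => ?_
    show ‖((p : ℝ) : ℂ) • f (LW.sc φ ψ R x)‖ₑ ^ 2 = _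
    rw [enorm_smul, mul_pow, ← ofReal_norm, Complex.norm_real, Real.norm_eq_abs, abs_of_pos hp0,
      ← ENNReal.ofReal_pow hp0.le]
  rw [h1, h (fun q => ‖f q‖ₑ ^ 2) (hf.enorm.pow_const 2)] at hz
  have h2 : ∫⁻ q, ‖f q‖ₑ ^ 2 ∂(LW.v3 r ds dm) ≤ ENNReal.ofReal (B ^ 2) := by
    refine le_trans (lintegral_mono' (glu_w_le r ds dm) le_rfl) ?_
    rw [glu_sq, ENNReal.ofReal_pow hB]
    gcongr
  have h3 : ENNReal.ofReal (nsq (Zb φ ψ f R)) ≤ ENNReal.ofReal (p ^ 2 * q * B ^ 2) := by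
    rw [mul_assoc, ENNReal.ofReal_mul (by positivity), ENNReal.ofReal_mul hq0.le]
    refine le_trans (le_of_eq hz) ?_
    gcongr
  exact (ENNReal.ofReal_le_ofReal_iff (by positivity)).1 h3

lemma lwt_avg_add [FiniteDimensional ℂ F] (M : BFSS.Model N d F) {f g : Cfg d → F} (hf : Continuous f) (hg : Continuous g) :
    avg M (fun x => f x + g x) = fun x => avg M f x + avg M g x := by
  funext x
  unfold avg
  rw [← integral_add]
  · refine integral_congr_ae (Eventually.of_forall fun U => ?_)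
    exact map_add _ _ _
  · exact (AvgG.tr_cont_left M (act_stmt M) hf x).integrable_of_hasCompactSupport (HasCompactSupport.of_compactSpace _)
  · exact (AvgG.tr_cont_left M (act_stmt M) hg x).integrable_of_hasCompactSupport (HasCompactSupport.of_compactSpace _)

lemma lwt_Zb_cont (φ : Spl dh dm d) (ψ : Spz r ds dh) {b : Cfg r × Cfg ds × Cfg dm → F} (hb : Continuous b) {R : ℝ}
    (hR : 0 < R) : Continuous (Zb φ ψ b R) := by
  have h : Continuous fun x : Cfg d => ((R ^ (3 * (dm : ℝ) - 9 * (r : ℝ) / 2) : ℝ) : ℂ) • b (gluTR φ ψ R hR x) :=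
    continuous_const.smul (hb.comp (gluTR φ ψ R hR).continuous)
  exact h

lemma lwt_Zb_cs (φ : Spl dh dm d) (ψ : Spz r ds dh) {b : Cfg r × Cfg ds × Cfg dm → F} (hb : HasCompactSupport b) {R : ℝ}
    (hR : 0 < R) : HasCompactSupport (Zb φ ψ b R) := by
  have h1 : HasCompactSupport (b ∘ (gluTR φ ψ R hR).toHomeomorph) := hb.comp_homeomorph _
  exact h1.smul_left (f := fun _ => ((R ^ (3 * (dm : ℝ) - 9 * (r : ℝ) / 2) : ℝ) : ℂ))

lemma lwt_Zb_sub (φ : Spl dh dm d) (ψ : Spz r ds dh) (b b' : Cfg r × Cfg ds × Cfg dm → F) (R : ℝ) :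
    Zb φ ψ b R = fun x => Zb φ ψ (fun q => b q - b' q) R x + Zb φ ψ b' R x := by
  funext x
  unfold Zb
  rw [← smul_add]
  simp only [sub_add_cancel]

/-- splitting of the average -/
lemma lwt_split [FiniteDimensional ℂ F] (M : BFSS.Model N d F) (φ : Spl dh dm d) (ψ : Spz r ds dh)
    {b b' : Cfg r × Cfg ds × Cfg dm → F} (hb : Continuous b) (hbs : HasCompactSupport b) (hb' : Continuous b')
    (hbs' : HasCompactSupport b') {R : ℝ} (hR : 0 < R) :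
    nsq (avg M (Zb φ ψ b R)) ≤ 2 * nsq (avg M (Zb φ ψ (fun q => b q - b' q) R)) + 2 * nsq (avg M (Zb φ ψ b' R)) := by
  have hc1 : Continuous (Zb φ ψ (fun q => b q - b' q) R) := lwt_Zb_cont φ ψ (hb.sub hb') hR
  have hc2 : Continuous (Zb φ ψ b' R) := lwt_Zb_cont φ ψ hb' hR
  have hs1 : HasCompactSupport (Zb φ ψ (fun q => b q - b' q) R) := lwt_Zb_cs φ ψ (hbs.sub hbs') hR
  have hs2 : HasCompactSupport (Zb φ ψ b' R) := lwt_Zb_cs φ ψ hbs' hR
  have h1 : avg M (Zb φ ψ b R) = fun x => avg M (Zb φ ψ (fun q => b q - b' q) R) x + avg M (Zb φ ψ b' R) x := by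
    rw [lwt_Zb_sub φ ψ b b' R, lwt_avg_add M hc1 hc2]
  rw [h1]
  exact nsq_add_le
    ((lwt_avg_cont M hc1).memLp_of_hasCompactSupport (p := 2) (μ := (volume : Measure (Cfg d))) (lwt_avg_cs M hs1))
    ((lwt_avg_cont M hc2).memLp_of_hasCompactSupport (p := 2) (μ := (volume : Measure (Cfg d))) (lwt_avg_cs M hs2))

lemma lwt_supp_ev {δ : ℝ} (hδ : 0 < δ) {Q : Set (Cfg r × Cfg ds × Cfg dm)} (hQ : IsCompact Q) :
    ∀ᶠ R : ℝ in atTop, ∀ q ∈ Q, ‖q.2.1‖ ≤ δ * R ∧ ‖q.2.2‖ ≤ δ * (R * Real.sqrt R) := by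
  obtain ⟨m, hm⟩ := hQ.isBounded.exists_norm_le
  filter_upwards [eventually_ge_atTop 1, (tendsto_id.const_mul_atTop hδ).eventually_ge_atTop m] with R h1 h2 q hq
  have h3 := hm q hq
  have h4 : ‖q.2.1‖ ≤ m := ((norm_fst_le q.2).trans (norm_snd_le q)).trans h3
  have h5 : ‖q.2.2‖ ≤ m := ((norm_snd_le q.2).trans (norm_snd_le q)).trans h3
  have h6 : 1 ≤ Real.sqrt R := Real.one_le_sqrt.2 h1
  have h7 : m ≤ δ * R := h2
  refine ⟨h4.trans h7, h5.trans (h7.trans (mul_le_mul_of_nonneg_left ?_ hδ.le))⟩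
  nlinarith

/-- **lower bound for the averages of a smooth profile** -/
theorem lwt_claim (M : BFSS.Model N d F) (hF : FiniteDimensional ℂ F) {S : Setup d F} (hM : Rep M S) {φ : Spl dh dm d}
    {ψ : Spz r ds dh} {L : Set (Cfg r)} (hLR : L ⊆ Reg S φ ψ) {δ C R₁ : ℝ} (hδ : 0 < δ) (hC : 0 < C)
    (hK : GKc S φ ψ L δ C R₁) {b : Cfg r × Cfg ds × Cfg dm → F} (hb : Continuous b) (hbs : HasCompactSupport b)
    (hbL : ∀ q ∈ tsupport b, q.1 ∈ interior L) {g : Cfg r × Cfg ds × Cfg dm → F} (hg : IsB S φ ψ g)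
    (hgL : ∀ q, g q ≠ 0 → q.1 ∈ L) {e c₁ R₀ : ℝ} (he : 0 < e) (hc₁ : 0 < c₁) (hec : 64 * (C * e) ^ 2 ≤ c₁)
    (hge : eLpNorm (fun q => b q - g q) 2 (wM r ds dm) ≤ ENNReal.ofReal e)
    (hlow : ∀ R : ℝ, R₀ ≤ R → c₁ ≤ nsq (avg M (Zb φ ψ b R))) :
    ∀ᶠ R in atTop, c₁ / 4 ≤ nsq (avg M (Zb φ ψ g R)) := by
  obtain ⟨Q, hQ, hQL, hap⟩ := lwt_apx S φ ψ hb hbs L hbL hLR
  filter_upwards [eventually_ge_atTop 1, eventually_ge_atTop R₀, eventually_ge_atTop R₁, lwt_supp_ev hδ hQ,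
    lwt_supp_ev hδ hg.cs.isCompact] with R h1 h2 h3 h4 h5
  have hR0 : 0 < R := by linarith
  obtain ⟨cR, hcR, hsc⟩ := lwt_scale (F := F) (r := r) (ds := ds) φ ψ hR0
  obtain ⟨e', he', hee', hce'⟩ : ∃ e' : ℝ, 0 < e' ∧ e' ≤ e ∧ cR * e' ^ 2 ≤ c₁ / 32 := by
    refine ⟨min e (Real.sqrt (c₁ / (32 * (cR + 1)))), lt_min he (Real.sqrt_pos.2 (by positivity)), min_le_left _ _, ?_⟩
    have h6 : (min e (Real.sqrt (c₁ / (32 * (cR + 1))))) ^ 2 ≤ c₁ / (32 * (cR + 1)) := by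
      have h7 : min e (Real.sqrt (c₁ / (32 * (cR + 1)))) ≤ Real.sqrt (c₁ / (32 * (cR + 1))) := min_le_right _ _
      calc _ ≤ (Real.sqrt (c₁ / (32 * (cR + 1)))) ^ 2 :=
            pow_le_pow_left₀ (le_min he.le (Real.sqrt_nonneg _)) h7 2
        _ = _ := Real.sq_sqrt (by positivity)
    calc cR * (min e (Real.sqrt (c₁ / (32 * (cR + 1))))) ^ 2 ≤ (cR + 1) * (c₁ / (32 * (cR + 1))) := by
          refine mul_le_mul (by linarith) h6 (by positivity) (by linarith)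
      _ = c₁ / 32 := by field_simp
  obtain ⟨β, hβ, hβQ, hβe⟩ := hap e' he'
  have hβc := hβ.sm.continuous
  have hgc := hg.sm.continuous
  -- difference `b - β`
  have n1 : nsq (avg M (Zb φ ψ (fun q => b q - β q) R)) ≤ c₁ / 32 := by
    have a1 := lwt_avg_le M (lwt_Zb_cont φ ψ (hb.sub hβc) hR0) (lwt_Zb_cs φ ψ (hbs.sub hβ.cs) hR0)
    have a2 : eLpNorm (fun q => b q - β q) 2 (wM r ds dm) ≤ ENNReal.ofReal e' := by
      refine le_trans (le_of_eq ?_) hβe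
      refine eLpNorm_congr_norm_ae (Eventually.of_forall fun q => ?_)
      exact norm_sub_rev _ _
    exact a1.trans ((hsc _ (hb.sub hβc).stronglyMeasurable e' he'.le a2).trans hce')
  -- difference `β - g`
  have hβg : IsB S φ ψ (fun q => β q - g q) := by
    refine ⟨hβ.sm.sub hg.sm, hβ.cs.sub hg.cs, fun q hq => ?_⟩
    have h6 : q ∈ tsupport β ∪ tsupport g := tsupport_sub β g hq
    rcases h6 with h6 | h6
    · exact hβ.reg q h6
    · exact hg.reg q h6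
  have n2 : nsq (avg M (Zb φ ψ (fun q => β q - g q) R)) ≤ c₁ / 16 := by
    have a2 : eLpNorm (fun q => β q - g q) 2 (wM r ds dm) ≤ ENNReal.ofReal (2 * e) := by
      have a3 : (fun q => β q - g q) = (fun q => β q - b q) + fun q => b q - g q := by
        funext q
        simp
      rw [a3]
      refine (eLpNorm_add_le (hβc.sub hb).aestronglyMeasurable (hb.sub hgc).aestronglyMeasurable one_le_two).trans ?_
      refine (add_le_add hβe hge).trans ?_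
      rw [← ENNReal.ofReal_add he'.le he.le]
      exact ENNReal.ofReal_le_ofReal (by linarith)
    have a4 := lwt_up M hF hM hC hK hR0 h3 hβg (fun q hq => by
      by_cases h0 : g q = 0
      · have h7 : β q ≠ 0 := by
          intro h8
          exact hq (by simp [h0, h8])
        exact ⟨hQL q (hβQ q h7), h4 q (hβQ q h7)⟩
      · exact ⟨hgL q h0, h5 q (subset_tsupport _ h0)⟩) (by positivity : 0 ≤ 2 * e) a2
    nlinarith
  have s1 := lwt_split M φ ψ hb hbs hgc hg.cs hR0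
  have s2 : nsq (avg M (Zb φ ψ (fun q => b q - g q) R)) ≤
      2 * nsq (avg M (Zb φ ψ (fun q => b q - g q - (β q - g q)) R)) + 2 * nsq (avg M (Zb φ ψ (fun q => β q - g q) R)) :=
    lwt_split M φ ψ (hb.sub hgc) (hbs.sub hg.cs) (hβc.sub hgc) (hβ.cs.sub hg.cs) hR0
  have e3 : (fun q => b q - g q - (β q - g q)) = fun q => b q - β q := by
    funext q
    abel
  rw [e3] at s2
  have s3 := hlow R h2
  linarith

end Vale.Agent.P353.AN.LWT
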