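import Vale.Agent.P353.AN.REP.OneE
import Vale.Agent.P353.AN.SY.LowA

/-! # P353, all `N`, block SY: representation estimate for a given smooth profile (after helper7, `REP/OneE`) -/

open MeasureTheory Filter Topology
open scoped ContDiff ENNReal

namespace Vale.Agent.P353.AN.LWT

open Vale.Agent.P353.Z Vale.Agent.P353.Z.U Vale.Agent.P353.Z.AN Vale.Agent.P353.AN.G Vale.Agent.P353.AN.REP

variable {N d dh dm r ds : ℕ} {F : Type*} [NormedAddCommGroup F] [InnerProductSpace ℂ F]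

/-- the estimate of R4 for a given smooth profile supported over `L` -/
theorem lwd_est (S : Setup d F) (hW : WnStmt S)
    (φ : Spl dh dm d) (ψ : Spz r ds dh) (Om : Cfg r → Matrix (Fin dm) (Fin dm) ℝ)
    (hOc : ContinuousOn Om (Reg S φ ψ)) (hO : ∀ η ∈ Reg S φ ψ, IsOm S.κ (Dz S φ ψ η) (Om η))
    (χ : ℝ → Cfg r × Cfg ds × Cfg dm → ℝ) (hχ : IsCo χ) (a : Cfg r → Cfg ds → F) (K : Set (Cfg r)) (hK : IsCompact K)
    (hKR : K ⊆ Reg S φ ψ) (ha : StronglyMeasurable (fun q : Cfg r × Cfg ds => a q.1 q.2))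
    (ha2 : MemLp (fun q : Cfg r × Cfg ds => a q.1 q.2) 2 (volume.prod volume)) (hak : ∀ η s, a η s ≠ 0 → η ∈ K)
    {L : Set (Cfg r)} (hKL : K ⊆ L) {δ C R₁ : ℝ} (hδ : 0 < δ) (hC : 0 < C) (hB : LWT.GKc S φ ψ L δ C R₁)
    {b : Cfg r × Cfg ds × Cfg dm → F} (hb : IsB S φ ψ b) (hbL : ∀ q, b q ≠ 0 → q.1 ∈ L) {ε' ε : ℝ} (hε0 : 0 < ε')
    (hε2 : C * (2 * ε') ≤ ε) (hbn : eLpNorm (fun q => b q - bG S.κ Om a q) 2 (wM r ds dm) ≤ ENNReal.ofReal ε') :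
    ∀ (R : ℕ → ℝ) (u : ℕ → Cfg d → F) (A : ℝ), BdL S R u A → ∀ᶠ n in atTop,
      ‖ipr (Zb φ ψ b (R n)) (u n) -
        ipr (Zb φ ψ (fun q => ((χ (R n) q : ℝ) : ℂ) • bG S.κ Om a q) (R n)) (u n)‖ ≤ ε * Real.sqrt A := by
  intro R u A hu
  have hε : 0 < ε := lt_of_lt_of_le (by positivity) hε2
  obtain ⟨Cw, hCw, hW'⟩ := hW dh dm r ds φ ψ K Om hK (hOc.mono hKR) (fun η hη => hO η (hKR hη))
  obtain ⟨hgs, hgn⟩ := hW' a ha hak
  have hg2 : MemLp (bG S.κ Om a : Cfg r × Cfg ds × Cfg dm → F) 2 (wM r ds dm) :=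
    ⟨hgs.aestronglyMeasurable, lt_of_le_of_lt hgn (ENNReal.mul_lt_top ENNReal.ofReal_lt_top ha2.2)⟩
  have hgk : ∀ q : Cfg r × Cfg ds × Cfg dm, bG S.κ Om a q ≠ 0 → q.1 ∈ K := by
    intro q hq
    exact hak _ _ (right_ne_zero_of_smul hq)
  have := rx_lf r ds dm
  have hbc : Continuous b := hb.sm.continuous
  have hb2 : MemLp b 2 (wM r ds dm) := hbc.memLp_of_hasCompactSupport hb.cs
  obtain ⟨M, hM⟩ := hb.cs.isCompact.isBounded.subset_closedBall (0 : Cfg r × Cfg ds × Cfg dm)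
  have hM' : ∀ q, b q ≠ 0 → ‖q.2.1‖ ≤ M ∧ ‖q.2.2‖ ≤ M := by
    intro q hq
    have h1 := hM (subset_tsupport _ hq)
    rw [mem_closedBall_zero_iff] at h1
    have h2 : ‖q.2‖ ≤ ‖q‖ := norm_snd_le q
    exact ⟨((norm_fst_le q.2).trans h2).trans h1, ((norm_snd_le q.2).trans h2).trans h1⟩
  have hA0 : 0 ≤ A := (nsq_nonneg (u 0)).trans (hu.norm 0)
  -- eventually
  have e1 : ∀ᶠ R in atTop, M ≤ δ * R := by
    filter_upwards [eventually_ge_atTop (M / δ)] with R hR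
    rw [div_le_iff₀ hδ] at hR
    linarith
  have hall : ∀ᶠ R in atTop, R₁ ≤ R ∧ 1 ≤ R ∧ M ≤ δ * R ∧
      (∀ q, χ R q ≠ 0 → ‖q.2.1‖ ≤ δ * R ∧ ‖q.2.2‖ ≤ δ * (R * Real.sqrt R)) ∧
      eLpNorm (fun q => bG S.κ Om a q - ((χ R q : ℝ) : ℂ) • bG S.κ Om a q) 2 (wM r ds dm) ≤ ENNReal.ofReal ε' := by
    filter_upwards [eventually_ge_atTop R₁, eventually_ge_atTop 1, e1, hχ.sup δ hδ, one_dct hχ hgs hg2 hε0]
      with R h1 h2 h3 h4 h5
    exact ⟨h1, h2, h3, h4, h5⟩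
  filter_upwards [hu.R_lim.eventually hall] with n hn
  obtain ⟨hr1, hr2, hr3, hr4, hr5⟩ := hn
  obtain ⟨ρ, hρ⟩ : ∃ ρ, ρ = R n := ⟨_, rfl⟩
  obtain ⟨v, hv⟩ : ∃ v, v = u n := ⟨_, rfl⟩
  have hui := hu.inv n
  have hun := hu.norm n
  rw [← hρ] at hr1 hr2 hr3 hr4 hr5 ⊢
  rw [← hv] at hui hun ⊢
  have hρ0 : 0 < ρ := by linarith
  have hcs : StronglyMeasurable fun q => ((χ ρ q : ℝ) : ℂ) • bG S.κ Om a q :=
    (Complex.measurable_ofReal.comp (hχ.meas ρ)).stronglyMeasurable.smul hgs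
  have hc2 : MemLp (fun q => ((χ ρ q : ℝ) : ℂ) • bG S.κ Om a q) 2 (wM r ds dm) := by
    refine hg2.mono hcs.aestronglyMeasurable (ae_of_all _ fun q => ?_)
    rw [norm_smul, Complex.norm_real, Real.norm_of_nonneg (hχ.bd ρ q).1]
    exact mul_le_of_le_one_left (norm_nonneg _) (hχ.bd ρ q).2
  have hDs : StronglyMeasurable fun q => b q - ((χ ρ q : ℝ) : ℂ) • bG S.κ Om a q := hbc.stronglyMeasurable.sub hcs
  have hD2 : MemLp (fun q => b q - ((χ ρ q : ℝ) : ℂ) • bG S.κ Om a q) 2 (wM r ds dm) := hb2.sub hc2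
  have hMs : M ≤ δ * (ρ * Real.sqrt ρ) := by
    refine hr3.trans (mul_le_mul_of_nonneg_left ?_ hδ.le)
    have : 1 ≤ Real.sqrt ρ := Real.one_le_sqrt.2 hr2
    nlinarith
  have hest := hB ρ hr1 (fun q => b q - ((χ ρ q : ℝ) : ℂ) • bG S.κ Om a q) hDs (fun q hq => by
    by_cases h : b q = 0
    · have h2 : ((χ ρ q : ℝ) : ℂ) • bG S.κ Om a q ≠ 0 := by
        intro h3
        apply hq
        rw [h, h3, sub_zero]
      have h4 : χ ρ q ≠ 0 := by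
        intro h5
        apply h2
        rw [h5, Complex.ofReal_zero, zero_smul]
      exact ⟨hKL (hgk q (right_ne_zero_of_smul h2)), hr4 q h4⟩
    · exact ⟨hbL q h, (hM' q h).1.trans hr3, (hM' q h).2.trans hMs⟩) hD2 v hui.1 hui.2
  have hlin : ipr (Zb φ ψ b ρ) v - ipr (Zb φ ψ (fun q => ((χ ρ q : ℝ) : ℂ) • bG S.κ Om a q) ρ) v =
      ∫ x, inner ℂ (Zb φ ψ (fun q => b q - ((χ ρ q : ℝ) : ℂ) • bG S.κ Om a q) ρ x) (v x) := by
    have i1 : Integrable (fun x => inner ℂ (Zb φ ψ b ρ x) (v x)) :=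
      glu_int (glu_memLp φ ψ ρ hρ0 (hb2.mono_measure (glu_w_le r ds dm))) hui.1.memLp
    have i2 : Integrable (fun x => inner ℂ (Zb φ ψ (fun q => ((χ ρ q : ℝ) : ℂ) • bG S.κ Om a q) ρ x) (v x)) :=
      glu_int (glu_memLp φ ψ ρ hρ0 (hc2.mono_measure (glu_w_le r ds dm))) hui.1.memLp
    unfold ipr
    rw [← integral_sub i1 i2]
    refine integral_congr_ae (ae_of_all _ fun x => ?_)
    simp only
    rw [← inner_sub_left]
    congr 1
    unfold Zb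
    rw [← smul_sub]
  have hnorm : eLpNorm (fun q => b q - ((χ ρ q : ℝ) : ℂ) • bG S.κ Om a q) 2 (wM r ds dm) ≤ ENNReal.ofReal (2 * ε') := by
    have h1 : (fun q => b q - ((χ ρ q : ℝ) : ℂ) • bG S.κ Om a q) =
        (fun q => b q - bG S.κ Om a q) + fun q => bG S.κ Om a q - ((χ ρ q : ℝ) : ℂ) • bG S.κ Om a q := by
      funext q
      simp only [Pi.add_apply]
      abel
    rw [h1]
    refine (eLpNorm_add_le (hbc.stronglyMeasurable.sub hgs).aestronglyMeasurable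
      (hgs.sub hcs).aestronglyMeasurable (by norm_num)).trans ?_
    rw [two_mul, ENNReal.ofReal_add hε0.le hε0.le]
    exact add_le_add hbn hr5
  have hvn : eLpNorm v 2 volume ≤ ENNReal.ofReal (Real.sqrt A) := by
    refine glu_le_of_sq ?_
    rw [glu_sq, ← glu_real_sq hui.1.memLp, ← ENNReal.ofReal_pow (Real.sqrt_nonneg _), Real.sq_sqrt hA0]
    exact ENNReal.ofReal_le_ofReal hun
  rw [hlin]
  have hfin : ‖∫ x, inner ℂ (Zb φ ψ (fun q => b q - ((χ ρ q : ℝ) : ℂ) • bG S.κ Om a q) ρ x) (v x)‖ₑ ≤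
      ENNReal.ofReal (ε * Real.sqrt A) := by
    refine hest.trans ((mul_le_mul' (mul_le_mul' le_rfl hnorm) hvn).trans ?_)
    rw [← ENNReal.ofReal_mul hC.le, ← ENNReal.ofReal_mul (by positivity)]
    exact ENNReal.ofReal_le_ofReal (mul_le_mul_of_nonneg_right hε2 (Real.sqrt_nonneg _))
  rw [← ofReal_norm, ENNReal.ofReal_le_ofReal_iff (by positivity)] at hfin
  exact hfin

end Vale.Agent.P353.AN.LWT
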