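import Vale.Agent.P353.AN.SY.LowB
import Vale.Agent.P353.AN.SY.LowC
import Vale.Agent.P353.AN.SY.LowD
import Vale.Agent.P353.AN.SY.Sys
import Vale.Agent.P353.AN.LOW.GsdT
import Vale.Agent.P353.AN.LOW.All
import Vale.Agent.P353.AN.LOW.Pw

/-! # P353, all `N`, block SY: the lower bound of the representatives (helper647, helper667) -/

open MeasureTheory Filter Topology Matrix
open scoped ContDiff ENNReal

namespace Vale.Agent.P353.Z.ASY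

open Vale.Agent.P353.Z.AJK

variable {N d k : ℕ} {F : Type} [NormedAddCommGroup F] [InnerProductSpace ℂ F]

lemma lwe_nsq {O : Matrix (Fin d) (Fin d) ℝ} (hO : O * O.transpose = 1) (f : Cfg d → F) :
    nsq (fun x => f (rox 1 O x)) = nsq f := by
  unfold nsq
  exact (AN.rt_mp h91 hO).integral_comp (AN.rtE 1 h91 O hO).toHomeomorph.measurableEmbedding (fun x => ‖f x‖ ^ 2)

/-- comparison family for one type (lower bound) -/
theorem lwe_one (hfin : FiniteDimensional ℂ F) {M : BFSS.Model N d F} {S : Setup d F} {n : Fin k → ℕ} (t : TyD M S n)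
    (hIso : AL.IsoStmt t.ty.S') {c₁ : ℝ} (hc₁ : 0 < c₁) (hO : OutC t c₁) {ε : ℝ} (hε : 0 < ε) :
    ∃ g₂ : DL t.ty.r (AL.Ek t.ty.n) t.ty.L, ‖(g₂ : HL t.ty.r (AL.Ek t.ty.n)) - gT t.ty‖ ≤ ε ∧
    ∃ b : Cfg t.D.dz × Cfg t.D.ds × Cfg t.D.dm → F,
      (∀ R : ℝ, 0 < R → t.D.S'.GInv (AN.G.avg t.D.M' (AN.Zb t.D.φ (spsw t.D.ψ) b R))) ∧
      (∀ (R : ℕ → ℝ) (u : ℕ → Cfg d → F) (A : ℝ), BdL t.D.S' R u A → ∀ᶠ n in atTop,
        ‖ipr (AN.G.avg t.D.M' (AN.Zb t.D.φ (spsw t.D.ψ) b (R n))) (u n) -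
          AL.ZZ S.κ t.ty.φ t.ty.ψ t.ty.Om (AL.sc t.ty.U t.ty.o (rp g₂)) (R n) (u n)‖ ≤ ε * Real.sqrt A) ∧
      ∀ᶠ R in atTop, lwcN t.ty ^ 2 * c₁ / 4 ≤ nsq (AN.G.avg t.D.M' (AN.Zb t.D.φ (spsw t.D.ψ) b R)) := by
  obtain ⟨c, hc⟩ : ∃ c, c = lwcN t.ty := ⟨_, rfl⟩
  have hc0 : 0 < c := by rw [hc]; exact lwcN_pos _
  obtain ⟨χ, h1, h2, h3, h4, h5, h6⟩ := hO (ε ^ 2 / c ^ 2) (by positivity)
  have hT : TstOff t.ty.L (lwcF t.ty χ) := lwc_tst t.ty h1 h2 h3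
  refine ⟨cl (lwcF t.ty χ) hT, ?_, ?_⟩
  · have e := lwc_norm t.ty hT
    have h7 : ‖((cl (lwcF t.ty χ) hT : DL t.ty.r (AL.Ek t.ty.n) t.ty.L) : HL t.ty.r (AL.Ek t.ty.n)) - gT t.ty‖ ^ 2 ≤ ε ^ 2 := by
      rw [e, ← hc]
      calc c ^ 2 * ∫ η, (1 - χ η) ^ 2 * gss η ^ 2 ≤ c ^ 2 * (ε ^ 2 / c ^ 2) := mul_le_mul_of_nonneg_left h5 (by positivity)
        _ = ε ^ 2 := by field_simp
    exact le_of_sq_le_sq h7 hε.le
  have hK : IsCompact (tsupport χ) := h2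
  have hKR : tsupport χ ⊆ AN.Reg t.D.S' t.D.φ (spsw t.D.ψ) := (sub_Rg t.ty h3).trans (AL.crd655_reg _ _ _)
  have hrp : rp (cl (lwcF t.ty χ) hT) = lwcF t.ty χ := rp_cl _ _
  have hs := (sec2 t.ty hIso (cl (lwcF t.ty χ) hT) hK h3 (by rw [hrp]; exact lwc_supp t.ty χ)).1
  obtain ⟨a', ham, ha2, hae, hZ⟩ := lwb_rep (dm := t.D.dm) S.κ t.ty.φ t.ty.ψ t.ty.Om hK.isClosed.measurableSet hs
  obtain ⟨L, hL, hKL, hLR⟩ := exists_compact_between hK (AN.REP.rx_isOpen_Reg t.D.S' t.D.φ (spsw t.D.ψ)) hKR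
  obtain ⟨δ, C, R₁, hδ, hC, hR₁, hGK⟩ := AN.All.gluK t.D.S' hfin t.D.dh t.D.dm t.D.dz t.D.ds t.D.φ (spsw t.D.ψ) L
    t.dat.sub t.dat.cen hL hLR
  obtain ⟨e, he0, he1, he2⟩ : ∃ e : ℝ, 0 < e ∧ 64 * (C * e) ^ 2 ≤ c ^ 2 * c₁ ∧ C * (2 * e) ≤ ε := by
    refine ⟨min (c * Real.sqrt c₁ / (8 * C)) (ε / (2 * C)), lt_min (by positivity) (by positivity), ?_, ?_⟩
    · have h7 : C * min (c * Real.sqrt c₁ / (8 * C)) (ε / (2 * C)) ≤ c * Real.sqrt c₁ / 8 := by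
        calc C * min (c * Real.sqrt c₁ / (8 * C)) (ε / (2 * C)) ≤ C * (c * Real.sqrt c₁ / (8 * C)) :=
              mul_le_mul_of_nonneg_left (min_le_left _ _) hC.le
          _ = c * Real.sqrt c₁ / 8 := by field_simp
      have h8 : 0 ≤ C * min (c * Real.sqrt c₁ / (8 * C)) (ε / (2 * C)) := by positivity
      have h9 := pow_le_pow_left₀ h8 h7 2
      have h10 : Real.sqrt c₁ ^ 2 = c₁ := Real.sq_sqrt hc₁.le
      have h11 : (c * Real.sqrt c₁ / 8) ^ 2 = c ^ 2 * c₁ / 64 := by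
        rw [div_pow, mul_pow, h10]
        norm_num
      rw [h11] at h9
      linarith
    · have h7 : min (c * Real.sqrt c₁ / (8 * C)) (ε / (2 * C)) ≤ ε / (2 * C) := min_le_right _ _
      rw [le_div_iff₀ (by positivity)] at h7
      linarith
  obtain ⟨b₀, p1, p2, p3, p4, R₀, -, p6⟩ := h6 (e / (2 * c)) (by positivity)
  obtain ⟨b, hbdef⟩ : ∃ b : Cfg t.D.dz × Cfg t.D.ds × Cfg t.D.dm → F, b = fun q => (c : ℂ) • b₀ q := ⟨_, rfl⟩
  have hbc : Continuous b := by rw [hbdef]; exact p1.const_smul _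
  have hbs : HasCompactSupport b := by rw [hbdef]; exact p2.smul_left
  have hbK : ∀ q ∈ tsupport b, q.1 ∈ tsupport χ := by
    intro q hq
    have hcl : IsClosed {q : Cfg t.D.dz × Cfg t.D.ds × Cfg t.D.dm | q.1 ∈ tsupport χ} :=
      (isClosed_tsupport χ).preimage continuous_fst
    refine closure_minimal (fun x hx => ?_) hcl hq
    rw [hbdef] at hx
    exact p3 x (right_ne_zero_of_smul hx)
  have hbL : ∀ q ∈ tsupport b, q.1 ∈ interior L := fun q hq => hKL (hbK q hq)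
  have hlow : ∀ R : ℝ, R₀ ≤ R → c ^ 2 * c₁ ≤ nsq (AN.G.avg t.D.M' (AN.Zb t.D.φ (spsw t.D.ψ) b R)) := by
    intro R hR
    rw [hbdef, lwc_avg]
    exact mul_le_mul_of_nonneg_left (p6 R hR) (by positivity)
  have hba : eLpNorm (fun q => b q - AN.bG S.κ t.ty.Om (AL.sc t.ty.U t.ty.o (lwcF t.ty χ)) q) 2
      (AN.wM t.D.dz t.D.ds t.D.dm) ≤ ENNReal.ofReal (e / 2) := by
    have h7 := lwc_eL (κ := S.κ) hc0.le t.ty.Om (fun η => χ η * gss η)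
      (fun η s => t.ty.U η (∑ j, t.ty.Ω j • t.ty.o j s)) (by positivity) p4
    have h8 : c * (e / (2 * c)) = e / 2 := by field_simp
    rw [h8] at h7
    have h9 : (AL.sc t.ty.U t.ty.o (lwcF t.ty χ)) =
        fun η s => ((c * (χ η * gss η) : ℝ) : ℂ) • t.ty.U η (∑ j, t.ty.Ω j • t.ty.o j s) := by
      funext η s
      have h10 := lwc_sc t.ty χ η s
      rw [← hc] at h10
      exact h10
    rw [h9, hbdef]
    exact h7
  obtain ⟨Q, hQ, hQL, hap⟩ := AN.LWT.lwt_apx t.D.S' t.D.φ (spsw t.D.ψ) hbc hbs L hbL hLR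
  obtain ⟨β, q1, q2, q3⟩ := hap (e / 2) (by positivity)
  have hβL : ∀ q, β q ≠ 0 → q.1 ∈ L := fun q hq => hQL q (q2 q hq)
  -- low
  have hge : eLpNorm (fun q => b q - β q) 2 (AN.wM t.D.dz t.D.ds t.D.dm) ≤ ENNReal.ofReal e := by
    refine le_trans (le_of_eq ?_) (q3.trans (ENNReal.ofReal_le_ofReal (by linarith)))
    exact eLpNorm_congr_norm_ae (ae_of_all _ fun q => norm_sub_rev _ _)
  have hlow2 := AN.LWT.lwt_claim t.D.M' hfin t.D.rep hLR hδ hC hGK hbc hbs hbL q1 hβL he0 (by positivity) he1 hge hlow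
  -- rep
  obtain ⟨hOc, hOI⟩ := rpt_cont t.dat.bun
  have hba' : eLpNorm (fun q => b q - AN.bG S.κ t.ty.Om a' q) 2 (AN.wM t.D.dz t.D.ds t.D.dm) ≤ ENNReal.ofReal (e / 2) := by
    refine le_trans (le_of_eq (eLpNorm_congr_ae ?_)) hba
    rw [hrp] at hae
    filter_upwards [hae] with q hq
    exact congrArg (fun z => b q - z) hq.symm
  have hβa : eLpNorm (fun q => β q - AN.bG S.κ t.ty.Om a' q) 2 (AN.wM t.D.dz t.D.ds t.D.dm) ≤ ENNReal.ofReal e := by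
    have h7 : (fun q => β q - AN.bG S.κ t.ty.Om a' q) =
        (fun q => β q - b q) + fun q => b q - AN.bG S.κ t.ty.Om a' q := by
      funext q
      simp only [Pi.add_apply]
      abel
    obtain ⟨Cw, hCw, hW'⟩ := AN.REP.All.wn t.D.S' t.D.dh t.D.dm t.D.dz t.D.ds t.D.φ (spsw t.D.ψ) (tsupport χ) t.ty.Om hK
      (hOc.mono hKR) (fun η hη => hOI η (hKR hη))
    obtain ⟨hgs, -⟩ := hW' a' ham ha2.2
    rw [h7]
    refine (eLpNorm_add_le (q1.sm.continuous.sub hbc).aestronglyMeasurable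
      (hbc.stronglyMeasurable.sub hgs).aestronglyMeasurable (by norm_num)).trans ?_
    refine (add_le_add q3 hba').trans ?_
    rw [← ENNReal.ofReal_add (by positivity) (by positivity)]
    exact ENNReal.ofReal_le_ofReal (by linarith)
  have hest := AN.LWT.lwd_est t.D.S' (AN.REP.All.wn t.D.S') t.D.φ (spsw t.D.ψ) t.ty.Om hOc hOI (fun R q => AL.chi R q)
    (AE.chiS _ _ _) a' (tsupport χ) hK hKR ham ha2.1 ha2.2 (fun η hη => interior_subset (hKL hη)) hδ hC hGK q1 hβL he0 he2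
    hβa
  refine ⟨β, fun R hR => ?_, fun R u A hu => ?_, ?_⟩
  · exact (AN.REP.All.ipr t.D.M' hfin t.D.S' t.D.rep _ (AN.REP.ob_tst t.D.φ (spsw t.D.ψ) β q1.sm q1.cs R hR)).1
  · filter_upwards [hest R u A hu, hu.R_lim.eventually_gt_atTop 0] with n hn hRn
    have h7 := (AN.REP.All.ipr t.D.M' hfin t.D.S' t.D.rep _
      (AN.REP.ob_tst t.D.φ (spsw t.D.ψ) β q1.sm q1.cs (R n) hRn)).2 (u n) (hu.inv n)
    exact (congrArg₂ (fun x y : ℂ => ‖x - y‖) h7 (hZ (R n) hRn (u n)).symm).trans_le hn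
  · rw [← hc]
    exact hlow2

/-- **comparison family of the concrete system** -/
theorem lwe_cmp (hfin : FiniteDimensional ℂ F) {M : BFSS.Model N d F} {S : Setup d F} (hRot : AE.RotOStmt S)
    (hIso : ∀ S' : Setup d F, AL.IsoStmt S') (hLin : ∀ S' : Setup d F, AL.LinStmt S') (hZ : ∀ S' : Setup d F, AL.ZMemStmt S')
    (hUB : ∀ S' : Setup d F, AL.UBStmt S') (hC : AN.Cless S) (TD : ∀ p : Typ N, TyD M S (pn p.1)) (hSgn : AS.SgnStmt.{0})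
    (hZms : ∀ p : Typ N, AX2.ZmsStmt (TD p).std.ss) (p : Typ N) (hOne : ∀ a, OneA.{0} 1 ((TD p).D.fr.fb (pn p.1 a))) :
    AN.LW.Cmp (pwT hfin hRot hIso hLin hZ hUB (fun p : Typ N => (TD p).ty) hC) p := by
  have hG := AN.LW.gsdT hfin (TD p) (AN.G.act_stmt _) hSgn (hZms p) hOne
  have : FiniteDimensional ℂ F := hfin
  obtain ⟨c₁, hc₁, hO⟩ := AN.LW.lowAt (TD p).D.M' (TD p).D.S' (TD p).D.rep (TD p).D.φ (spsw (TD p).D.ψ) (TD p).dat.sub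
    (AN.LW.isZT (TD p)) (AN.LW.lessT (TD p)) _ _ _ _ hG
  refine ⟨lwcN (TD p).ty ^ 2 * c₁ / 4, by have := lwcN_pos (TD p).ty; positivity, fun ε hε => ?_⟩
  obtain ⟨g₂, h1, b, h2, h3, h4⟩ := lwe_one hfin (TD p) (hIso _) hc₁ hO hε
  refine ⟨g₂, h1, fun R => rptJ (TD p) b R, ⟨?_, ?_⟩, ?_⟩
  · filter_upwards [eventually_gt_atTop (0 : ℝ)] with R hR
    exact rpt_ginv (TD p).D.hO (h2 R hR)
  · intro R u A hu
    have hu' : BdL (TD p).D.S' R (fun n => tr (TD p).ty.O (u n)) A :=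
      ⟨hu.R_lim, fun n => (tr_GInv (TD p).ty hRot (hu.inv n)).1, fun n => (tr_GInv (TD p).ty hRot (hu.inv n)).2.trans_le (hu.norm n)⟩
    filter_upwards [h3 R _ A hu'] with n hn
    have e1 : ipr (rptJ (TD p) b (R n)) (u n) =
        ipr (AN.G.avg (TD p).D.M' (AN.Zb (TD p).D.φ (spsw (TD p).D.ψ) b (R n))) (tr (TD p).ty.O (u n)) :=
      (hRot h91 (TD p).D.O (TD p).D.hO).2.2 (AN.G.avg (TD p).D.M' (AN.Zb (TD p).D.φ (spsw (TD p).D.ψ) b (R n))) (u n)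
    have e2 := ipr_ZT (TD p).ty hRot (R n) g₂ (u n)
    rw [e1]
    change ‖_ - ipr (ZT (TD p).ty (R n) g₂) (u n)‖ ≤ _
    rw [e2]
    exact hn
  · filter_upwards [h4] with R hR
    refine hR.trans (le_of_eq ?_)
    exact (lwe_nsq (TD p).D.hO _).symm

/-- **gauge invariant representatives of the concrete system** -/
theorem repOf (hA : Alg) (hSgn : AS.SgnStmt.{0}) : RepOut := by
  intro N d F _ _ hfin M S hRep hAn TD hC hSep hOne
  obtain ⟨J, hJ⟩ := repA hfin (hAn.rot S) (fun S' => hAn.iso S') (fun S' => hAn.lin S') (fun S' => hAn.zmem S')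
    (fun S' => hAn.ub S') hC hA TD
  refine ⟨J, ⟨hJ.inv, hJ.supp, hJ.disj, hJ.rep, fun p => ?_⟩⟩
  obtain ⟨c₀, ε₀, h1, h2, h3⟩ := AN.LW.lowAll _ p (lwe_cmp hfin (hAn.rot S) (fun S' => hAn.iso S') (fun S' => hAn.lin S')
    (fun S' => hAn.zmem S') (fun S' => hAn.ub S') hC TD hSgn (fun _ => hA.zms _) p (hOne p))
  refine ⟨c₀, ε₀, h1, h2, fun a ha ε hε hε' => ?_⟩
  exact h3 a ha ε hε hε' (J p a ε) ⟨hJ.inv p a ε hε, hJ.rep p a ε hε⟩

end Vale.Agent.P353.Z.ASY
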