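import Vale.Agent.P353.AN.D.Sec
import Vale.Agent.P353.AN.JN.All
import Vale.Agent.P353.AN.SY.Sys

/-! # P353, all `N`: block JN in the form used by the system (helper714) -/

open MeasureTheory Filter Topology Matrix
open scoped ContDiff

namespace Vale.Agent.P353.Z.ASY

open Vale.Agent.P353.Z.AJK

/-- **no loss for the concrete system** -/
theorem noLossOut : NoLossOut := by
  intro N d F _ _ hfin M S hRep hAn ι ty hC hCov
  exact AJ.noLossAll M S hRep (fun S' => AD.locAll S') (fun e T' h => hAn.ic e T' h) hfin _ _ _ _ _ ty hC hCov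

end Vale.Agent.P353.Z.ASY
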