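import Vale.Agent.P353.AN.SY.AlgAll
import Vale.Agent.P353.AN.SY.AnaAll
import Vale.Agent.P353.AN.SY.NoLossO
import Vale.Agent.P353.AN.SY.LowE
import Vale.Agent.P353.AN.SGN.All

/-! # P353, all `N`, block SY: the weak profile system of a model (unconditional, helper667) -/

namespace Vale.Agent.P353.Z.ASY

/-- the system exists for every `N ≥ 2`, given the representatives -/
theorem sysRep (hRO : RepOut) : ∀ N : ℕ, 2 ≤ N → Fin1.SysStmt N := fun N hN =>
  sys algAll (fun F _ _ h => anaAll F h) noLossOut hRO N hN

/-- **gauge invariant representatives** -/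
theorem repOut : RepOut := repOf algAll AS.sgnAll

/-- **OUTPUT OF BLOCK SY**: the weak profile system for every `N ≥ 2` -/
theorem sysAll : ∀ N : ℕ, 2 ≤ N → Fin1.SysStmt N := sysRep repOut

end Vale.Agent.P353.Z.ASY
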