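import Vale.Agent.P353.AN.SY.Defs

/-! # P353, all `N`, block SY: number of types (SY1) -/

namespace Vale.Agent.P353.Z.ASY

variable {N : ℕ}

theorem sy1_card {N : ℕ} (hN : 1 ≤ N) (p : Nat.Partition N) :
    ¬ 2 ≤ Multiset.card p.parts ↔ p = Nat.Partition.indiscrete N := by
  constructor
  · intro h
    have h1 : Multiset.card p.parts ≠ 0 := by
      intro h0
      rw [Multiset.card_eq_zero] at h0
      have := p.parts_sum
      rw [h0] at this
      simp at this
      omega
    have h2 : Multiset.card p.parts = 1 := by omega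
    obtain ⟨a, ha⟩ := Multiset.card_eq_one.1 h2
    have h3 := p.parts_sum
    rw [ha, Multiset.sum_singleton] at h3
    subst h3
    apply Nat.Partition.ext
    rw [ha, Nat.Partition.indiscrete_parts (by omega)]
  · rintro rfl
    rw [Nat.Partition.indiscrete_parts (by omega)]
    simp

theorem sy1_mem (p : Nat.Partition N) (a : Fin (Multiset.card p.parts)) : pn p a ∈ p.parts := by
  rw [pn, ← Multiset.mem_toList]
  exact List.get_mem _ _

theorem sy1_sum (p : Nat.Partition N) : ∑ a, pn p a = N := by
  have h1 : ∑ a, pn p a = ∑ i : Fin p.parts.toList.length, p.parts.toList.get i := by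
    refine Fintype.sum_equiv (finCongr (Multiset.length_toList p.parts).symm) _ _ ?_
    intro a
    rfl
  rw [h1]
  have h2 : ∑ i : Fin p.parts.toList.length, p.parts.toList.get i = p.parts.toList.sum := by
    rw [← List.sum_ofFn, List.ofFn_get]
  rw [h2, Multiset.sum_toList, p.parts_sum]

/-- **SY1** number of types and block sizes. -/
theorem cnt : CntStmt := by
  classical
  intro N hN
  refine ⟨?_, ?_⟩
  · have h1 : Fintype.card (Typ N) = Fintype.card {p : Nat.Partition N // 2 ≤ Multiset.card p.parts} :=
      Fintype.card_congr (Equiv.refl _)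
    have h2 := Fintype.card_subtype_compl (fun p : Nat.Partition N => 2 ≤ Multiset.card p.parts)
    have h3 : Fintype.card {p : Nat.Partition N // ¬ 2 ≤ Multiset.card p.parts} = 1 := by
      rw [Fintype.card_eq_one_iff]
      refine ⟨⟨Nat.Partition.indiscrete N, (sy1_card hN _).2 rfl⟩, ?_⟩
      rintro ⟨p, hp⟩
      exact Subtype.ext ((sy1_card hN p).1 hp)
    have h4 := Fintype.card_subtype_le (fun p : Nat.Partition N => 2 ≤ Multiset.card p.parts)
    rw [h1]
    omega
  · intro p
    refine ⟨fun a => p.parts_pos (sy1_mem p a), sy1_sum p, ?_⟩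
    intro h2 a
    have h3 := sy1_sum p
    obtain ⟨b, hb⟩ : ∃ b : Fin (Multiset.card p.parts), b ≠ a := by
      have : Nontrivial (Fin (Multiset.card p.parts)) := Fin.nontrivial_iff_two_le.2 h2
      exact exists_ne a
    have h5 : pn p a + pn p b ≤ ∑ c, pn p c := by
      have := Finset.sum_le_sum_of_subset (f := fun c => pn p c) (Finset.subset_univ ({a, b} : Finset (Fin (Multiset.card p.parts))))
      rwa [Finset.sum_pair hb.symm] at this
    have h6 : 0 < pn p b := p.parts_pos (sy1_mem p b)
    omega

end Vale.Agent.P353.Z.ASY
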