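import Vale.Agent.P353.AN.SY.Defs
import Vale.Agent.P353.AN.COV.Stmt

/-! # P353, all `N`, block SY: SY4, the bridge from the block COV (helper155) -/

open MeasureTheory Filter Topology Matrix
open scoped ContDiff

namespace Vale.Agent.P353.Z.ASY

open Vale.Agent.P353.Z.AJK

variable {N d : ℕ} {F : Type} [NormedAddCommGroup F] [InnerProductSpace ℂ F]

lemma b155_map (p : Nat.Partition N) : Finset.univ.val.map (pn p) = p.parts := by
  rw [Fin.univ_val_map]
  have h : List.ofFn (pn p) = p.parts.toList := by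
    refine List.ext_get ?_ ?_
    · rw [List.length_ofFn, Multiset.length_toList]
    · intro m h1 h2
      rw [List.get_ofFn]
      rfl
  rw [h, Multiset.coe_toList]

lemma b155_cmb {dh ds dz : ℕ} (ψ : Spl ds dz dh) (η : Cfg dz) : AD.cmb ψ 0 η = AN.cmb (spsw ψ) η 0 := by
  ext ⟨i, A⟩
  obtain ⟨t, rfl⟩ := ψ.surjective A
  unfold AD.cmb AN.cmb spsw
  cases t <;> simp

theorem covB (M : BFSS.Model N d F) (S : Setup d F) (h : ACov.CovStmt M) : CovStmt M S := by
  intro hRep hN Y hY hV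
  by_cases hN2 : 2 ≤ N
  · obtain ⟨p, hp, hall⟩ := h hN2 S hRep Y hY hV
    refine ⟨p, hp, fun D _ => ?_⟩
    have key : ∀ (T : Fin d → Matrix (Fin N) (Fin N) ℂ) (_ : T = ACov.rT M.T D.O) (fr : NFr (pn p) T D.φ D.ψ),
        ∃ (U : BFSS.SU N) (η : Cfg D.dz), (∀ a b, a ≠ b → ∃ i : Fin 9, fr.val η i a ≠ fr.val η i b) ∧
          rox 1 D.O (M.act U Y) = emb D.φ (AD.cmb D.ψ 0 η) 0 := by
      intro T hT fr
      subst hT
      exact hall _ _ _ _ _ _ D.O D.hO D.φ D.ψ fr (b155_map p)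
    obtain ⟨U, η, h1, h2⟩ := key D.M'.T (funext D.T_eq) D.fr
    exact ⟨U, η, h1, by rw [h2, b155_cmb]⟩
  · exfalso
    have hN1 : N = 1 := by omega
    subst hN1
    have hd : d = 0 := by
      have := M.dim_eq
      simpa using this
    subst hd
    apply hY
    ext ⟨i, A⟩
    exact A.elim0

end Vale.Agent.P353.Z.ASY
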