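import Vale.Agent.P353.AN.SY.Defs

/-! # P353, all `N`, block SY: frames exist -/

open MeasureTheory Filter Topology Matrix
open scoped ContDiff

namespace Vale.Agent.P353.Z.ASY

open Vale.Agent.P353.Z.AJK

variable {N d : ℕ} {F : Type} [NormedAddCommGroup F] [InnerProductSpace ℂ F]

theorem frs (M : BFSS.Model N d F) (S : Setup d F) : FrStmt M S := by
  intro hEx hRotM hBas hRep k n hk hn hs
  obtain ⟨dh, dm, ds, dz, φ, ψ, O, hO, ⟨fr⟩⟩ := hEx N d k n M.T M.f (hBas N d F M) hk hn hs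
  obtain ⟨M', hrep, hT, hS, hact, -⟩ := hRotM N d F M S hRep O h91 hO
  have hT' : (fun A => ∑ B, ((O A B : ℝ) : ℂ) • M.T B) = M'.T := (funext hT).symm
  rw [hT'] at fr
  exact ⟨⟨O, hO, dh, dm, ds, dz, φ, ψ, M', fr, hrep, hT, hS, hact⟩⟩

end Vale.Agent.P353.Z.ASY
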