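import Vale.Agent.P353.AN.SY.Defs

/-! # P353, all `N`, block SY: a point in standard position, `dm > 0`, regular points (`PtStmt`, helper379) -/

open MeasureTheory Filter Topology Matrix
open scoped ContDiff

namespace Vale.Agent.P353.Z.ASY

open Vale.Agent.P353.Z.AJK

variable {N d k : ℕ} {F : Type} [NormedAddCommGroup F] [InnerProductSpace ℂ F]

lemma pt379_cmb {ds dz dh : ℕ} (ψ : Spl ds dz dh) (η : Cfg dz) :
    Vale.Agent.P353.Z.cmb (spsw ψ) η 0 = AD.cmb ψ 0 η := by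
  ext p
  simp only [Vale.Agent.P353.Z.cmb, AD.cmb, spsw]
  obtain ⟨q, hq⟩ := ψ.surjective p.2
  rw [← hq]
  simp only [Equiv.symm_trans_apply, Equiv.symm_apply_apply]
  rcases q with a | b
  · rfl
  · rfl

lemma pt379_Dz {dh dm ds dz : ℕ} (S : Setup d F) (φ : Spl dh dm d) (ψ : Spl ds dz dh) (η : Cfg dz) (i : Fin 9) :
    S.Dz φ (spsw ψ) η i = AD.Dz S φ ψ η i := by
  simp only [Setup.Dz, AD.Dz, pt379_cmb]

/-- **SY3** -/
theorem pt (M : BFSS.Model N d F) (S : Setup d F) : PtStmt M S := by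
  intro k n D hVal hReg hStd hBas
  have hb : Bas N d D.M'.T D.S'.f := by
    have h := hBas N d F D.M'
    rw [← D.rep.hf] at h
    exact h
  obtain ⟨v1, v2, v3, v4, v5⟩ := hVal hb
  have hR := hReg hb
  have h2 : 2 ≤ k := D.fr.two
  have hpos : 0 < ∑ a, (n a : ℝ) :=
    Finset.sum_pos (fun a _ => by exact_mod_cast D.fr.pos a) ⟨⟨0, by omega⟩, Finset.mem_univ _⟩
  refine ⟨?_, ?_, ?_⟩
  · by_contra h0
    have hdm : D.dm = 0 := by omega
    have : IsEmpty (Fin D.dm) := by rw [hdm]; infer_instance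
    have h := (hR Finset.univ 0).1 (by rw [Matrix.det_isEmpty]; exact one_ne_zero) ⟨0, by omega⟩ ⟨1, by omega⟩
      (by intro h; simpa using congrArg Fin.val h)
    obtain ⟨i, -, hi⟩ := h
    exact hi (by simp [NFr.val])
  · obtain ⟨η, hη⟩ := v2 (fun _ a => (a : ℝ) - (∑ b, (n b : ℝ))⁻¹ * ∑ b, (n b : ℝ) * (b : ℝ)) (by
      intro i
      simp only [mul_sub, Finset.sum_sub_distrib]
      rw [← Finset.sum_mul, ← mul_assoc, mul_inv_cancel₀ hpos.ne', one_mul, sub_self])
    refine ⟨η, hStd hb hReg η fun a b hab h => hab ?_⟩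
    rw [hη, hη] at h
    have h' : (a : ℝ) = (b : ℝ) := by linarith
    exact Fin.ext (by exact_mod_cast h')
  · intro η
    have h := hR Finset.univ η
    simp only [Finset.mem_univ, true_and] at h
    rw [← h]
    simp only [AL.Rg, Set.mem_ofPred_eq, pt379_Dz]

end Vale.Agent.P353.Z.ASY
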