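import Vale.Agent.P353.AN.SY.Defs
import Vale.Agent.P353.AN.COV.Stmt
import Vale.Agent.P353.Z.U.MSet

/-! # P353, all `N`, block SY5: different types are not gauge equivalent, from `ACov.DisStmt` (prover helper895) -/

open MeasureTheory Filter Topology Matrix
open scoped ContDiff

namespace Vale.Agent.P353.Z.ASY

open Vale.Agent.P353.Z.AJK

variable {N d k : ℕ} {F : Type} [NormedAddCommGroup F] [InnerProductSpace ℂ F]

theorem sep895_cmb {ds dz dh : ℕ} (ψ : Spl ds dz dh) (η : Cfg dz) : AN.cmb (spsw ψ) η 0 = AD.cmb ψ 0 η := by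
  ext ⟨i, A⟩
  obtain ⟨a, rfl⟩ := ψ.surjective A
  rcases a with a | a <;> simp [AN.cmb, AD.cmb, spsw]

theorem sep895_rox (O : Matrix (Fin d) (Fin d) ℝ) (hO : O * O.transpose = 1) (X : Cfg d) :
    rox 1 O (ro O.transpose X) = X := by
  ext ⟨i, A⟩
  have h1 : ∀ A C, ∑ B, O A B * O C B = if A = C then 1 else 0 := by
    intro A C
    have := congrFun (congrFun hO A) C
    rw [Matrix.mul_apply] at this
    simpa [Matrix.transpose_apply, Matrix.one_apply] using this
  have h2 : (rox 1 O (ro O.transpose X)) (i, A) =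
      ∑ j, ∑ B, (1 : Matrix (Fin 9) (Fin 9) ℝ) i j * O A B * ∑ C, O C B * X (j, C) := rfl
  rw [h2, Finset.sum_eq_single i]
  · simp only [Matrix.one_apply_eq, one_mul, Finset.mul_sum]
    rw [Finset.sum_comm]
    have h3 : ∀ C, ∑ B, O A B * (O C B * X (i, C)) = (∑ B, O A B * O C B) * X (i, C) := by
      intro C
      rw [Finset.sum_mul]
      exact Finset.sum_congr rfl fun B _ => by ring
    simp only [h3, h1]
    simp
  · intro j _ hj
    refine Finset.sum_eq_zero fun B _ => ?_
    rw [Matrix.one_apply_ne (Ne.symm hj)]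
    ring
  · simp

theorem sep895_val {dh dm ds dz : ℕ} {n : Fin k → ℕ} {T T' : Fin d → Matrix (Fin N) (Fin N) ℂ} (h : T = T')
    {φ : Spl dh dm d} {ψ : Spl ds dz dh} (fr : NFr n T φ ψ) :
    ∃ fr' : NFr n T' φ ψ, ∀ η i a, fr'.val η i a = fr.val η i a := by
  subst h
  exact ⟨fr, fun _ _ _ => rfl⟩

theorem sep895_pn (p : Nat.Partition N) : Finset.univ.val.map (pn p) = p.parts := by
  have h1 : ∀ (L : List ℕ) (m : ℕ) (hm : m = L.length),
      (Finset.univ : Finset (Fin m)).val.map (fun a => L.get (a.cast hm)) = (L : Multiset ℕ) := by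
    intro L m hm
    subst hm
    simp only [Fin.cast_eq_self]
    have h2 : (Finset.univ : Finset (Fin L.length)).val = ((List.finRange L.length : List (Fin L.length)) : Multiset (Fin L.length)) := rfl
    rw [h2, Multiset.map_coe]
    congr 1
    simp
  have h3 := h1 p.parts.toList (Multiset.card p.parts) (Multiset.length_toList _).symm
  rw [Multiset.coe_toList] at h3
  exact h3

/-- **SY5** from the output of block COV -/
theorem sepB (M : BFSS.Model N d F) (S : Setup d F) (h : ACov.DisStmt M) : SepStmt M S := by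
  intro p q hpq D D' η η' hη hη' V he
  obtain ⟨S₀, hrep⟩ := Z.U.setS M
  have hN : 2 ≤ N := by
    by_contra hN
    have hN' : N = 0 ∨ N = 1 := by omega
    rcases hN' with rfl | rfl
    · exact hpq (Subsingleton.elim p q)
    · exact hpq (Subsingleton.elim p q)
  have hT : D.M'.T = ACov.rT M.T D.O := funext D.T_eq
  have hT' : D'.M'.T = ACov.rT M.T D'.O := funext D'.T_eq
  obtain ⟨fr, hfr⟩ := sep895_val hT D.fr
  obtain ⟨fr', hfr'⟩ := sep895_val hT' D'.fr
  have h1 := h hN S₀ hrep _ _ _ _ _ _ D.O D.hO D.φ D.ψ fr η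
    (fun a b hab => by
      obtain ⟨i, hi⟩ := hη a b hab
      exact ⟨i, by rwa [hfr, hfr]⟩)
    _ _ _ _ _ _ D'.O D'.hO D'.φ D'.ψ fr' η'
    (fun a b hab => by
      obtain ⟨i, hi⟩ := hη' a b hab
      exact ⟨i, by rwa [hfr', hfr']⟩)
    V (ro D.O.transpose (emb D.φ (AN.cmb (spsw D.ψ) η 0) 0))
    (by rw [sep895_rox D.O D.hO, sep895_cmb])
    (by rw [he, sep895_rox D'.O D'.hO, sep895_cmb])
  rw [sep895_pn, sep895_pn] at h1
  exact hpq (Nat.Partition.ext h1)

end Vale.Agent.P353.Z.ASY
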