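import Vale.Agent.P353.AN.SY.TyD
import Vale.Agent.P353.AN.SY.Cnt
import Vale.Agent.P353.AN.SY.Frs
import Vale.Agent.P353.AN.SY.Pt
import Vale.Agent.P353.AN.SY.Cov
import Vale.Agent.P353.AN.SY.Sep
import Vale.Agent.P353.AN.NF.All
import Vale.Agent.P353.AN.X2.AllB
import Vale.Agent.P353.AN.COV.Fin

/-! # P353, all `N`, block SY: the algebraic inputs (unconditional, helper667) -/

namespace Vale.Agent.P353.Z.ASY

/-- outputs of the blocks NF, X2, COV and of the leaves of block SY -/
theorem algAll : Alg where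
  ex := ANF.exAll
  rotM := ANF.rotMAll
  basM := ANF.basMAll
  val := fun f fr => ANF.valAll f fr
  reg := fun S fr => ANF.regAll S fr
  std := fun S fr => ANF.std_stmt S fr
  one := fun S fr => ANF.oneAll S fr
  ih := AX2.ihAll
  prod := AX2.prodAll
  zero := AX2.zeroAll
  x2 := AX2.x2All
  zms := fun S => AX2.zms_stmt S
  cnt := cnt
  frs := fun M S => frs M S
  pt := fun M S => pt M S
  cov := fun M S => covB M S (ACov.covM M)
  sep := fun M S => sepB M S (ACov.disM M)

end Vale.Agent.P353.Z.ASY
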