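import Vale.Agent.P353.AN.JN.TyEx
import Vale.Agent.P353.AN.JN.StmtC
import Vale.Agent.P353.AN.NF.RotM
import Vale.Agent.P353.AN.REP.Stmt
import Mathlib.Combinatorics.Enumerative.Partition.Basic

/-! # P353, all `N`, block SY: the weak profile system of a model — definitions and statements (architect helper667)

`FrM M S n` = block frame of type `n` for the model `M` together with the model in this frame. The types are the partitions of `N` with at
least two parts. -/

open MeasureTheory Filter Topology Matrix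
open scoped ContDiff

namespace Vale.Agent.P353.Z.ASY

open Vale.Agent.P353.Z.AJK

variable {N d k : ℕ} {F : Type} [NormedAddCommGroup F] [InnerProductSpace ℂ F]

/-- block frame for the model `M` with setup `S` -/
structure FrM (M : BFSS.Model N d F) (S : Setup d F) (n : Fin k → ℕ) where
  O : Matrix (Fin d) (Fin d) ℝ
  hO : O * O.transpose = 1
  dh : ℕ
  dm : ℕ
  ds : ℕ
  dz : ℕ
  φ : Spl dh dm d
  ψ : Spl ds dz dh
  M' : BFSS.Model N d F
  fr : NFr n M'.T φ ψ
  rep : U.Rep M' (S.rot 1 h91 O hO)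
  T_eq : ∀ A, M'.T A = ∑ B, ((O A B : ℝ) : ℂ) • M.T B
  S_eq : M'.S = M.S
  act_eq : ∀ V x, M'.act V (ro O x) = ro O (M.act V x)

/-- the setup in the frame -/
noncomputable abbrev FrM.S' {M : BFSS.Model N d F} {S : Setup d F} {n : Fin k → ℕ} (D : FrM M S n) : Setup d F :=
  S.rot 1 h91 D.O D.hO

/-- block sizes of a partition -/
noncomputable def pn (p : Nat.Partition N) (a : Fin (Multiset.card p.parts)) : ℕ :=
  p.parts.toList.get (a.cast (Multiset.length_toList _).symm)

/-- the types: partitions with at least two parts -/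
def Typ (N : ℕ) : Type := {p : Nat.Partition N // 2 ≤ Multiset.card p.parts}

instance (N : ℕ) : Fintype (Typ N) := by unfold Typ; infer_instance

/-- **SY1** number of types, block sizes. PROOF: the only partition of `N ≥ 1` with fewer than two parts is `(N)` (`Nat.Partition.indiscrete`). -/
def CntStmt : Prop := ∀ N : ℕ, 1 ≤ N → Fintype.card (Typ N) + 1 = Fintype.card (Nat.Partition N) ∧
  ∀ p : Nat.Partition N, (∀ a, 1 ≤ pn p a) ∧ ∑ a, pn p a = N ∧ (2 ≤ Multiset.card p.parts → ∀ a, pn p a < N)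

/-- **SY2** frames exist. PROOF: `ExStmt`, `BasMStmt`, `RotMStmt`. -/
def FrStmt (M : BFSS.Model N d F) (S : Setup d F) : Prop := ANF.ExStmt → ANF.RotMStmt.{0} → ANF.BasMStmt.{0} → U.Rep M S →
  ∀ (k : ℕ) (n : Fin k → ℕ), 2 ≤ k → (∀ a, 1 ≤ n a) → ∑ a, n a = N → Nonempty (FrM M S n)

/-- **SY3** a point in standard position; `dm > 0`; regular points. PROOF: `ValStmt` with `v 8 a = a - N⁻¹∑ n_b b`; `StdStmt`; `RegStmt` with `η = 0`
(`∑_i 0 = 0` is not invertible since `k ≥ 2`, so `dm ≠ 0`). Last part: `D_8² `, `RegStmt` with `I = univ`, `AD.Dz S φ ψ = S.Dz φ (spsw ψ)`. -/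
def PtStmt (M : BFSS.Model N d F) (S : Setup d F) : Prop := ∀ (k : ℕ) (n : Fin k → ℕ) (D : FrM M S n),
  ANF.ValStmt D.S'.f D.fr → ANF.RegStmt D.S' D.fr → ANF.StdStmt D.S' D.fr → ANF.BasMStmt.{0} →
  0 < D.dm ∧ (∃ z₀ : Cfg D.dz, AD.Std2 D.S' D.φ D.ψ z₀) ∧
  ∀ η : Cfg D.dz, η ∈ AL.Rg D.S' D.φ (spsw D.ψ) ↔ ∀ a b, a ≠ b → ∃ i : Fin 9, D.fr.val η i a ≠ D.fr.val η i b

/-- **SY4** (COV) every commuting configuration is gauge equivalent to a central one of its type. PROOF. The hermitian matrices `X_i = ∑_A Y(i,A)T_A` commute (`S.V Y = 0`), so there are `W` unitary, `det W = 1`, with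
`W X_i W^*` diagonal; `v : Fin N → (Fin 9 → ℝ)` the joint eigenvalues. The fibres of `v` define a partition `p` of `N` (`2 ≤ card`, since `Y ≠ 0` and the `X_i` are traceless); permute the coordinates (a permutation matrix times a phase in
`SU(N)`) so that `v ∘ D.fr.E` depends on the block only; by `ValStmt` it is `val η` for a central configuration `η`; `η ∈ Rg` since different blocks have different values; `M.act U Y` = coordinates of `U X_i U^*` (`adCoeff`). -/
def CovStmt (M : BFSS.Model N d F) (S : Setup d F) : Prop := U.Rep M S → 1 ≤ N → ∀ Y : Cfg d, Y ≠ 0 → S.V Y = 0 →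
  ∃ p : Nat.Partition N, 2 ≤ Multiset.card p.parts ∧ ∀ D : FrM M S (pn p), ANF.ValStmt D.S'.f D.fr →
    ∃ (U : BFSS.SU N) (η : Cfg D.dz), (∀ a b, a ≠ b → ∃ i : Fin 9, D.fr.val η i a ≠ D.fr.val η i b) ∧
      rox 1 D.O (M.act U Y) = emb D.φ (AN.cmb (spsw D.ψ) η 0) 0

/-- **SY5** different types are not gauge equivalent. PROOF. The matrices of the configuration `rox 1 D.Oᵀ (emb …)` are the block scalars with the values `val η` (`T_eq`, `z_eq`); the multiset of multiplicities of the joint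
eigenvalues is invariant under conjugation: it is `p.parts` on the left and `q.parts` on the right. -/
def SepStmt (M : BFSS.Model N d F) (S : Setup d F) : Prop := ∀ p q : Nat.Partition N, p ≠ q → ∀ (D : FrM M S (pn p)) (D' : FrM M S (pn q))
  (η : Cfg D.dz) (η' : Cfg D'.dz), (∀ a b, a ≠ b → ∃ i : Fin 9, D.fr.val η i a ≠ D.fr.val η i b) →
  (∀ a b, a ≠ b → ∃ i : Fin 9, D'.fr.val η' i a ≠ D'.fr.val η' i b) → ∀ U : BFSS.SU N,
    M.act U (ro D.O.transpose (emb D.φ (AN.cmb (spsw D.ψ) η 0) 0)) ≠ ro D'.O.transpose (emb D'.φ (AN.cmb (spsw D'.ψ) η' 0) 0)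

end Vale.Agent.P353.Z.ASY
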