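import Vale.Agent.P353.AN.SY.TyD
import Vale.Agent.P353.AN.LOW.Defs
import Vale.Agent.P353.AN.SGN.Comb
import Vale.Agent.P353.AN.SGN.Swp
import Vale.Agent.P353.AN.SGN.AdSym
import Vale.Agent.P353.AN.X2.Zms
import Vale.Agent.P353.AN.L.Crd

/-! # P353, all `N`, block SY: ground state data of a type (helper973) -/

open MeasureTheory Filter Topology Matrix
open scoped ContDiff

namespace Vale.Agent.P353.Z.ASY

open Vale.Agent.P353.Z.AJK Vale.Agent.P353.AN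

section Coords

variable {d dh dm ds dz : ℕ} {φ : Spl dh dm d} {ψ : Spl ds dz dh} {O : Matrix (Fin d) (Fin d) ℝ}

lemma gtb_s (η : Cfg dz) (s : Cfg ds) (i : Fin 9) (A : Fin ds) :
    LW.ezs φ (spsw ψ) η s (i, φ (Sum.inl (ψ (Sum.inl A)))) = s (i, A) := by
  have h : (spsw ψ).symm (ψ (Sum.inl A)) = Sum.inr A := by
    rw [Equiv.symm_apply_eq]
    rfl
  simp [LW.ezs, emb, AN.cmb, h]

lemma gtb_z (η : Cfg dz) (s : Cfg ds) (i : Fin 9) (a : Fin dz) :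
    LW.ezs φ (spsw ψ) η s (i, φ (Sum.inl (ψ (Sum.inr a)))) = η (i, a) := by
  have h : (spsw ψ).symm (ψ (Sum.inr a)) = Sum.inl a := by
    rw [Equiv.symm_apply_eq]
    rfl
  simp [LW.ezs, emb, AN.cmb, h]

lemma gtb_m (η : Cfg dz) (s : Cfg ds) (i : Fin 9) (B : Fin dm) :
    LW.ezs φ (spsw ψ) η s (i, φ (Sum.inr B)) = 0 := by
  simp only [LW.ezs, emb, Equiv.symm_apply_apply, Sum.elim_inr]
  refine Fin.lastCases ?_ (fun j => ?_) i
  · exact Fin.lastCases_last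
  · exact Fin.lastCases_castSucc j

lemma gtb_sum {M : Type*} [AddCommMonoid M] (φ : Spl dh dm d) (ψ : Spl ds dz dh) (g : Fin d → M) :
    ∑ B, g B = (∑ A, g (φ (Sum.inl (ψ (Sum.inl A)))) + ∑ a, g (φ (Sum.inl (ψ (Sum.inr a))))) +
      ∑ B, g (φ (Sum.inr B)) := by
  rw [← φ.sum_comp, Fintype.sum_sum_type, ← ψ.sum_comp, Fintype.sum_sum_type]

/-- the action of a block matrix -/
lemma gtb_ro (hB : Blk φ ψ O) (η : Cfg dz) (s : Cfg ds) :
    ro O (LW.ezs φ (spsw ψ) η s) = LW.ezs φ (spsw ψ) (ro (zO φ ψ O) η) (ro (sO φ ψ O) s) := by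
  ext ⟨i, C⟩
  change ∑ B, O C B * LW.ezs φ (spsw ψ) η s (i, B) = _
  rw [gtb_sum φ ψ]
  simp only [gtb_s, gtb_z, gtb_m, mul_zero, Finset.sum_const_zero, add_zero]
  obtain ⟨p, rfl⟩ := φ.surjective C
  rcases p with p | p
  · obtain ⟨q, rfl⟩ := ψ.surjective p
    rcases q with q | q
    · rw [gtb_s]
      simp only [hB.sz, zero_mul, Finset.sum_const_zero, add_zero]
      rfl
    · rw [gtb_z]
      simp only [hB.zs, zero_mul, Finset.sum_const_zero, zero_add]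
      rfl
  · rw [gtb_m]
    simp only [hB.mh, zero_mul, Finset.sum_const_zero, add_zero]

lemma gtb_hs (η : Cfg dz) (s : Cfg ds) : AN.hs (spsw ψ) (AN.zy φ (LW.ezs φ (spsw ψ) η s)) = s := by
  ext ⟨i, A⟩
  exact gtb_s η s i A

lemma gtb_inj {η η' : Cfg dz} {s s' : Cfg ds} (h : LW.ezs φ (spsw ψ) η s = LW.ezs φ (spsw ψ) η' s') : η = η' := by
  ext ⟨i, a⟩
  rw [← gtb_z (φ := φ) (ψ := ψ) η s i a, h, gtb_z]

lemma gtb_bs (φ : Spl dh dm d) (ψ : Spl ds dz dh) (A : Fin ds) : LW.bl φ (spsw ψ) (φ (Sum.inl (ψ (Sum.inl A)))) = 1 := by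
  have h : (spsw ψ).symm (ψ (Sum.inl A)) = Sum.inr A := by
    rw [Equiv.symm_apply_eq]
    rfl
  simp [LW.bl, h]

lemma gtb_bz (φ : Spl dh dm d) (ψ : Spl ds dz dh) (a : Fin dz) : LW.bl φ (spsw ψ) (φ (Sum.inl (ψ (Sum.inr a)))) = 0 := by
  have h : (spsw ψ).symm (ψ (Sum.inr a)) = Sum.inl a := by
    rw [Equiv.symm_apply_eq]
    rfl
  simp [LW.bl, h]

lemma gtb_bm (φ : Spl dh dm d) (ψ : Spl ds dz dh) (B : Fin dm) : LW.bl φ (spsw ψ) (φ (Sum.inr B)) = 2 := by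
  simp [LW.bl]

lemma gtb_bh (φ : Spl dh dm d) (ψ : Spl ds dz dh) (A : Fin dh) : LW.bl φ (spsw ψ) (φ (Sum.inl A)) ≠ 2 := by
  obtain ⟨q, rfl⟩ := ψ.surjective A
  rcases q with q | q
  · rw [gtb_bs]
    decide
  · rw [gtb_bz]
    decide

/-- normalising elements are block diagonal -/
lemma gtb_blk {N : ℕ} {F : Type} [NormedAddCommGroup F] [InnerProductSpace ℂ F] {M : BFSS.Model N d F} {V : BFSS.SU N}
    (h : LW.Nrm M φ (spsw ψ) V) : Blk φ ψ (adO M.T V) where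
  hm A B := h _ _ (by rw [gtb_bm]; exact gtb_bh φ ψ A)
  mh A B := h _ _ (by rw [gtb_bm]; exact (gtb_bh φ ψ A).symm)
  sz A B := h _ _ (by rw [gtb_bs, gtb_bz]; decide)
  zs A B := h _ _ (by rw [gtb_bs, gtb_bz]; decide)

end Coords

variable {N d k : ℕ} {F : Type} [NormedAddCommGroup F] [InnerProductSpace ℂ F] {M : BFSS.Model N d F} {S : Setup d F}
  {n : Fin k → ℕ}

/-- **ground state data of a type** -/
theorem gsdTB (hfin : FiniteDimensional ℂ F) (hbasM : ANF.BasMStmt.{0}) (hSgn : AS.SgnStmt.{0}) (t : TyD M S n)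
    (hOne : ∀ a, OneA.{0} 1 (t.D.fr.fb (n a))) :
    LW.Gsd t.D.M' t.D.S' t.D.φ (spsw t.D.ψ) (Finset.univ.image t.l) (t.D.S'.UU t.D.φ t.E t.l) t.w0
      (OmE t.D.S'.κ t.E t.l) := by
  have hbasD : Bas N d t.D.M'.T t.D.S'.f := by
    have h := hbasM N d F t.D.M'
    rw [← t.D.rep.hf] at h
    exact h
  have hB := t.dat.bun
  have hreg : ∀ η, η ∉ Coll (Finset.univ.image t.l) → η ∈ AN.Reg t.D.S' t.D.φ (spsw t.D.ψ) := by
    intro η hη
    refine AL.crd655_reg _ _ _ ?_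
    have h := hB.det η hη
    simp only [AX.DM_Dz] at h
    exact h
  obtain ⟨h0, hz, h1⟩ := w0_mem t (AX2.zms_stmt _)
  have hUn : ∀ (y : Cfg t.D.dz) (v : F), ‖t.D.S'.UU t.D.φ t.E t.l y v‖ = ‖v‖ := by
    intro y v
    rw [norm_eq_sqrt_re_inner (𝕜 := ℂ), norm_eq_sqrt_re_inner (𝕜 := ℂ), hB.U_inner]
  have hom : ∀ η, η ∉ Coll (Finset.univ.image t.l) →
      IsOm t.D.S'.κ (DM (AX.Mz t.D.S' t.D.φ (spsw (spsw t.D.ψ))) η) (OmE t.D.S'.κ t.E t.l η) :=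
    fun η hη => hB.om η (hB.det η hη)
  refine ⟨hB.L_ne, hB.closed, hreg, hUn, hB.U_smooth.continuousOn, hB.U_surj, fun η hη => ⟨(hom η hη).symm, (hom η hη).pos⟩,
    ?_, h0, h1, ?_⟩
  · refine continuousOn_pi.2 fun A => continuousOn_pi.2 fun B => ?_
    exact (hB.om_smooth A B).continuousOn.mono fun η hη => hB.det η hη
  · intro V hV η η' hη hη' hact
    have hBlk := gtb_blk hV
    have hSym := AS.adSym_stmt N d F t.D.M'.T t.D.S' hbasD
    have hO := AS.s249_orth t.D.φ t.D.ψ (hSym.1 V).orth hBlk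
    have hro : ∀ x, t.D.M'.act V x = ro (adO t.D.M'.T V) x := fun x => rfl
    have h2 := hSgn N d t.D.dh t.D.dm t.D.ds t.D.dz k n F hfin t.D.M' t.D.S' t.D.φ t.D.ψ t.D.fr t.z₀ t.std t.D.rep hOne
      _ _ _ _ t.rd V hBlk η hη
    have hη2 : η' = ro (zO t.D.φ t.D.ψ (adO t.D.M'.T V)) η := by
      rw [hro, gtb_ro hBlk] at hact
      exact (gtb_inj hact).symm
    have h3 := h2.2 _ hz
    have e1 := h0.coeFn_toLp
    filter_upwards [h3, e1, (AS.swp379_qmp hO).ae e1] with s a1 a2 a3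
    rw [a2, a3, ← hη2] at a1
    rw [hro, gtb_ro hBlk, gtb_hs]
    exact a1

end Vale.Agent.P353.Z.ASY
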