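import Vale.Agent.P353.AN.SY.RepT
import Vale.Agent.P353.AN.SY.LowA
import Vale.Agent.P353.AN.GL.GluC

/-! # P353, all `N`, block SY: comparison family for the lower bound of the representatives (helper647) -/

open MeasureTheory Filter Topology Matrix
open scoped ContDiff ENNReal

namespace Vale.Agent.P353.Z.ASY

open Vale.Agent.P353.Z.AJK

variable {N d k : ℕ} {F : Type} [NormedAddCommGroup F] [InnerProductSpace ℂ F]

/-- strongly measurable representative of a section, with the almost everywhere equality -/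
theorem lwb_rep {dh dm r ds : ℕ} (κ : ℝ) (φ : Spl dh dm d) (ψ : Spl r ds dh) (Om : Cfg r → Matrix (Fin dm) (Fin dm) ℝ)
    {A : Set (Cfg r)} (hA : MeasurableSet A) {a : Cfg r → Cfg ds → F} (ha : AL.Sec2 A a) :
    ∃ a' : Cfg r → Cfg ds → F, StronglyMeasurable (fun q : Cfg r × Cfg ds => a' q.1 q.2) ∧ AL.Sec2 A a' ∧
      (AN.bG κ Om a : Cfg r × Cfg ds × Cfg dm → F) =ᵐ[AN.wM r ds dm] AN.bG κ Om a' ∧
      ∀ R, 0 < R → ∀ u : Cfg d → F, AL.ZZ κ φ ψ Om a' R u = AL.ZZ κ φ ψ Om a R u := by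
  set B : Set (Cfg r × Cfg ds) := A ×ˢ Set.univ with hB
  have hBm : MeasurableSet B := hA.prod MeasurableSet.univ
  set g : Cfg r × Cfg ds → F := B.indicator (ha.1.1.mk _) with hg
  have hgm : StronglyMeasurable g := (ha.1.1.stronglyMeasurable_mk).indicator hBm
  have hga : (fun q : Cfg r × Cfg ds => a q.1 q.2) =ᵐ[volume.prod volume] g := by
    filter_upwards [ha.1.1.ae_eq_mk] with q hq
    by_cases hqB : q ∈ B
    · rw [hg, Set.indicator_of_mem hqB, ← hq]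
    · rw [hg, Set.indicator_of_notMem hqB]
      by_contra h0
      exact hqB ⟨ha.2 q.1 q.2 h0, Set.mem_univ _⟩
  refine ⟨fun η s => g (η, s), hgm, ⟨ha.1.ae_eq hga, fun η s h0 => ?_⟩, ?_, fun R hR u => ?_⟩
  · by_contra h1
    exact h0 (Set.indicator_of_notMem (fun h2 : (η, s) ∈ B => h1 h2.1) _)
  · have hT : Measure.QuasiMeasurePreserving (fun q : Cfg r × Cfg ds × Cfg dm => (q.1, q.2.1))
        ((volume : Measure (Cfg r)).prod ((volume : Measure (Cfg ds)).prod (volume : Measure (Cfg dm))))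
        ((volume : Measure (Cfg r)).prod (volume : Measure (Cfg ds))) := by
      have h5 : ((volume : Measure (Cfg ds)).prod (volume : Measure (Cfg dm))).IsAddHaarMeasure :=
        Measure.prod.instIsAddHaarMeasure _ _
      have h6 : ((volume : Measure (Cfg r)).prod ((volume : Measure (Cfg ds)).prod (volume : Measure (Cfg dm)))).IsAddHaarMeasure :=
        Measure.prod.instIsAddHaarMeasure _ _
      have h7 : ((volume : Measure (Cfg r)).prod (volume : Measure (Cfg ds))).IsAddHaarMeasure :=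
        Measure.prod.instIsAddHaarMeasure _ _
      exact AE.gd655_qmp ((LinearMap.fst ℝ (Cfg r) (Cfg ds × Cfg dm)).prod
        ((LinearMap.fst ℝ (Cfg ds) (Cfg dm)).comp (LinearMap.snd ℝ (Cfg r) (Cfg ds × Cfg dm))))
        (fun p => ⟨(p.1, p.2, 0), rfl⟩) _ _
    have h1 := hT.ae hga
    have h2 : AN.wM r ds dm ≪
        ((volume : Measure (Cfg r)).prod ((volume : Measure (Cfg ds)).prod (volume : Measure (Cfg dm)))) :=
      withDensity_absolutelyContinuous _ _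
    filter_upwards [h2.ae_le h1] with q hq
    show _ • a q.1 q.2.1 = _ • g (q.1, q.2.1)
    rw [hq]
  · have q1 : ∀ᵐ y : Cfg dh, a (R⁻¹ • AN.hz ψ y) (AN.hs ψ y) = g (R⁻¹ • AN.hz ψ y, AN.hs ψ y) :=
      (AE.gd655_qmp (AE.gd655L ψ R) (AE.gd655L_surj ψ hR.ne') (volume : Measure (Cfg dh))
        ((volume : Measure (Cfg r)).prod (volume : Measure (Cfg ds)))).ae hga
    have q2 : ∀ᵐ x : Cfg d, a (R⁻¹ • AN.hz ψ (AN.zy φ x)) (AN.hs ψ (AN.zy φ x)) =
        g (R⁻¹ • AN.hz ψ (AN.zy φ x), AN.hs ψ (AN.zy φ x)) :=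
      (AE.gd655_qmp (AE.gd655Z φ) (AE.gd655Z_surj φ) (volume : Measure (Cfg d)) (volume : Measure (Cfg dh))).ae q1
    unfold AL.ZZ
    refine integral_congr_ae ?_
    filter_upwards [q2] with x hx
    simp only [AN.Zb, AN.bG, hx]

/-- conclusion of LOW9 for a type -/
def OutC {M : BFSS.Model N d F} {S : Setup d F} {n : Fin k → ℕ} (t : TyD M S n) (c₁ : ℝ) : Prop :=
  ∀ ε : ℝ, 0 < ε → ∃ χ : Cfg t.D.dz → ℝ, ContDiff ℝ ∞ χ ∧ HasCompactSupport χ ∧
    Disjoint (tsupport χ) (Coll (Finset.univ.image t.l)) ∧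
    (∀ η, 0 ≤ χ η ∧ χ η ≤ 1) ∧ (∫ η : Cfg t.D.dz, (1 - χ η) ^ 2 * gss η ^ 2) ≤ ε ∧
    ∀ ε' : ℝ, 0 < ε' → ∃ b : Cfg t.D.dz × Cfg t.D.ds × Cfg t.D.dm → F, Continuous b ∧ HasCompactSupport b ∧
      (∀ q, b q ≠ 0 → q.1 ∈ tsupport χ) ∧
      eLpNorm (fun q => b q - AN.bG t.D.S'.κ (OmE t.D.S'.κ t.E t.l)
        (fun η s => ((χ η * gss η : ℝ) : ℂ) • t.D.S'.UU t.D.φ t.E t.l η (t.w0 s)) q) 2 (AN.wM _ _ _) ≤ ENNReal.ofReal ε' ∧
      ∃ R₀ : ℝ, 1 ≤ R₀ ∧ ∀ R : ℝ, R₀ ≤ R → c₁ ≤ nsq (AN.G.avg t.D.M' (AN.Zb t.D.φ (spsw t.D.ψ) b R))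

end Vale.Agent.P353.Z.ASY
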