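import Vale.Agent.P353.AN.SY.LowB
import Vale.Agent.P353.AN.LOW.Pw

/-! # P353, all `N`, block SY: comparison family for the lower bound of the representatives (helper647) -/

open MeasureTheory Filter Topology Matrix
open scoped ContDiff ENNReal

namespace Vale.Agent.P353.Z.ASY

open Vale.Agent.P353.Z.AJK

variable {N d k : ℕ} {F : Type} [NormedAddCommGroup F] [InnerProductSpace ℂ F]

lemma lwm_sc {M : BFSS.Model N d F} {S : Setup d F} {n : Fin k → ℕ} (t : TyD M S n) (c : Cfg t.D.dz → ℝ) :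
    AL.sc t.ty.U t.ty.o (fun η => ((c η : ℝ) : ℂ) • t.ty.Ω) =
      fun η s => ((c η : ℝ) : ℂ) • t.D.S'.UU t.D.φ t.E t.l η (t.w0 s) := by
  funext η s
  show ∑ j, (((c η : ℝ) : ℂ) • t.Ω) j • t.D.S'.UU t.D.φ t.E t.l η (t.o j s) = _
  show _ = ((c η : ℝ) : ℂ) • t.D.S'.UU t.D.φ t.E t.l η (∑ j, t.Ω j • t.o j s)
  rw [map_sum, Finset.smul_sum]
  refine Finset.sum_congr rfl fun j _ => ?_
  rw [map_smul, smul_smul, PiLp.smul_apply, smul_eq_mul]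

lemma lwm_tst {r : ℕ} {K : Type*} [NormedAddCommGroup K] [InnerProductSpace ℂ K] {L : Finset (Fin r → ℝ)} {χ : Cfg r → ℝ}
    (h1 : ContDiff ℝ ∞ χ) (h2 : HasCompactSupport χ) (h3 : Disjoint (tsupport χ) (Coll L)) (w : K) :
    TstOff L (fun η => ((χ η * gss η : ℝ) : ℂ) • w) ∧
      tsupport (fun η => ((χ η * gss η : ℝ) : ℂ) • w) ⊆ tsupport χ := by
  have hg : ContDiff ℝ ∞ (gss : Cfg r → ℝ) := by
    unfold gss
    fun_prop
  have hs : tsupport (fun η => ((χ η * gss η : ℝ) : ℂ) • w) ⊆ tsupport χ := by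
    refine closure_mono fun η hη => ?_
    intro h0
    refine hη ?_
    show ((χ η * gss η : ℝ) : ℂ) • w = 0
    rw [h0, zero_mul, Complex.ofReal_zero, zero_smul]
  refine ⟨⟨⟨?_, ?_⟩, ?_⟩, hs⟩
  · exact (Complex.ofRealCLM.contDiff.comp (h1.mul hg)).smul contDiff_const
  · exact h2.mono' (subset_closure.trans hs)
  · exact Set.disjoint_of_subset_left hs h3

/-- distance of the truncated ground state -/
lemma lwm_dist {r : ℕ} {K : Type*} [NormedAddCommGroup K] [InnerProductSpace ℂ K] {L : Finset (Fin r → ℝ)} {χ : Cfg r → ℝ}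
    {w : K} (hw : ‖w‖ = 1) (hζ : TstOff L (fun η => ((χ η * gss η : ℝ) : ℂ) • w)) {e : ℝ} (he : 0 ≤ e)
    (h : (∫ η : Cfg r, (1 - χ η) ^ 2 * gss η ^ 2) ≤ e ^ 2) :
    ‖((cl _ hζ : DL r K L) : HL r K) - gcl w‖ ≤ e := by
  refine le_of_sq_le_sq ?_ he
  rw [norm_sq_eq]
  refine le_trans (le_of_eq ?_) h
  unfold nsq
  refine integral_congr_ae ?_
  filter_upwards [Lp.coeFn_sub ((cl _ hζ : DL r K L) : HL r K) (gcl w), cl_ae _ hζ, gcl_ae (r := r) w] with η h1 h2 h3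
  rw [h1, Pi.sub_apply, h2, h3, ← sub_smul, norm_smul, hw, mul_one, ← Complex.ofReal_sub, Complex.norm_real,
    Real.norm_eq_abs, sq_abs]
  ring

omit [InnerProductSpace ℂ F] in
lemma lwm_nsq_rox {O : Matrix (Fin d) (Fin d) ℝ} (hO : O * O.transpose = 1) (v : Cfg d → F) :
    nsq (fun x => v (rox 1 O x)) = nsq v := by
  unfold nsq
  exact (AN.rt_mp h91 hO).integral_comp (AN.rtE 1 h91 O hO).toHomeomorph.measurableEmbedding (fun x => ‖v x‖ ^ 2)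

open Vale.Agent.P353.Z.AH Vale.Agent.P353.Z.AJ in
lemma lwm_smul_ginv {S : Setup d F} {u : Cfg d → F} (hu : S.GInv u) (c : ℂ) : S.GInv fun x => c • u x :=
  GInv_csmul (S := S) c hu

omit [InnerProductSpace ℂ F] in
lemma lwm_ipr_smul [InnerProductSpace ℂ F] (s : ℝ) (f u : Cfg d → F) :
    ipr (fun x => ((s : ℝ) : ℂ) • f x) u = ((s : ℝ) : ℂ) * ipr f u := by
  unfold ipr
  rw [← integral_const_mul]
  refine integral_congr_ae (Eventually.of_forall fun x => ?_)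
  show inner ℂ (((s : ℝ) : ℂ) • f x) (u x) = _
  rw [inner_smul_left, Complex.conj_ofReal]

/-- **comparison family** -/
theorem lwm_cmp (hfin : FiniteDimensional ℂ F) {M : BFSS.Model N d F} {S : Setup d F} {n : Fin k → ℕ} (hRot : AE.RotOStmt S)
    (hIso : ∀ S' : Setup d F, AL.IsoStmt S') (hLin : ∀ S' : Setup d F, AL.LinStmt S') (t : TyD M S n) {c₁ : ℝ} (hc₁ : 0 < c₁)
    (hOut : OutC t c₁) {e : ℝ} (he : 0 < e) :
    ∃ (g2 : DL t.ty.r (AL.Ek t.ty.n) t.ty.L) (f : ℝ → Cfg d → F), ‖(g2 : HL t.ty.r (AL.Ek t.ty.n)) - gT t.ty‖ ≤ e ∧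
      (∀ R : ℝ, 0 < R → S.GInv (f R)) ∧
      (∀ (R : ℕ → ℝ) (u : ℕ → Cfg d → F) (A : ℝ), BdL S R u A → ∀ᶠ n in atTop,
        ‖ipr (f (R n)) (u n) - ipr (ZT t.ty (R n) g2) (u n)‖ ≤ e * Real.sqrt A) ∧
      ∀ᶠ R in atTop, (‖(gcl t.ty.Ω : HL t.ty.r (AL.Ek t.ty.n))‖⁻¹) ^ 2 * (c₁ / 4) ≤ nsq (f R) := by
  obtain ⟨s, hsdef⟩ : ∃ s : ℝ, s = ‖(gcl t.ty.Ω : HL t.ty.r (AL.Ek t.ty.n))‖⁻¹ := ⟨_, rfl⟩
  have hs : 0 < s := by
    rw [hsdef]
    exact inv_pos.2 (norm_pos_iff.2 (gcl_ne (Ω_ne t.ty)))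
  -- the cutoff
  obtain ⟨χ, hχ1, hχ2, hχ3, hχ4, hχ5, hχ6⟩ := hOut ((e / s) ^ 2) (by positivity)
  have hK : IsCompact (tsupport χ) := hχ2
  have hKRg : tsupport χ ⊆ AL.Rg t.ty.S' t.ty.φ t.ty.ψ := sub_Rg t.ty hχ3
  have hKR : tsupport χ ⊆ AN.Reg t.D.S' t.D.φ (spsw t.D.ψ) := hKRg.trans (AL.crd655_reg _ _ _)
  obtain ⟨L, hL, hKL, hLR⟩ := exists_compact_between hK (AN.REP.rx_isOpen_Reg t.D.S' t.D.φ (spsw t.D.ψ)) hKR
  obtain ⟨δ, C, R₁, hδ, hC, hR₁, hGK⟩ := AN.All.gluK t.D.S' hfin t.D.dh t.D.dm t.D.dz t.D.ds t.D.φ (spsw t.D.ψ) L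
    t.dat.sub t.dat.cen hL hLR
  obtain ⟨e₁, he₁, hee1, hee2⟩ : ∃ e₁ : ℝ, 0 < e₁ ∧ 64 * (C * (2 * e₁)) ^ 2 ≤ c₁ ∧ s * (C * (2 * e₁)) ≤ e := by
    refine ⟨min (Real.sqrt (c₁ / 64) / (2 * C)) (e / (s * C * 2)), lt_min (by positivity) (by positivity), ?_, ?_⟩
    · have h1 : C * (2 * min (Real.sqrt (c₁ / 64) / (2 * C)) (e / (s * C * 2))) ≤ Real.sqrt (c₁ / 64) := by
        have h2 := min_le_left (Real.sqrt (c₁ / 64) / (2 * C)) (e / (s * C * 2))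
        calc _ ≤ C * (2 * (Real.sqrt (c₁ / 64) / (2 * C))) := by gcongr
          _ = _ := by field_simp
      have h3 : 0 ≤ C * (2 * min (Real.sqrt (c₁ / 64) / (2 * C)) (e / (s * C * 2))) := by positivity
      have h4 := pow_le_pow_left₀ h3 h1 2
      rw [Real.sq_sqrt (by positivity)] at h4
      linarith
    · have h2 := min_le_right (Real.sqrt (c₁ / 64) / (2 * C)) (e / (s * C * 2))
      calc _ ≤ s * (C * (2 * (e / (s * C * 2)))) := by gcongr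
        _ = _ := by field_simp
  obtain ⟨b, hb1, hb2, hb3, hb4, R₀, -, hb5⟩ := hχ6 e₁ he₁
  -- the profile
  obtain ⟨hζ, hζs⟩ := lwm_tst (L := t.ty.L) hχ1 hχ2 hχ3 t.ty.Ω
  obtain ⟨a0, ha0⟩ : ∃ a0 : DL t.ty.r (AL.Ek t.ty.n) t.ty.L, a0 = cl _ hζ := ⟨_, rfl⟩
  have hrp : rp a0 = fun η => ((χ η * gss η : ℝ) : ℂ) • t.ty.Ω := by
    rw [ha0]
    exact rp_cl _ hζ
  have hsec := (sec2 t.ty (hIso _) a0 hK hχ3 (by rw [hrp]; exact hζs)).1
  obtain ⟨a1, ham, ha2, hae, hZ⟩ := lwb_rep S.κ t.ty.φ t.ty.ψ t.ty.Om hK.isClosed.measurableSet hsec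
  obtain ⟨hOc, hOI⟩ := rpt_cont t.dat.bun
  obtain ⟨Cw, hCw, hW⟩ := AN.REP.All.wn t.D.S' t.D.dh t.D.dm t.D.dz t.D.ds t.D.φ (spsw t.D.ψ) (tsupport χ) t.ty.Om hK
    (hOc.mono hKR) (fun η hη => hOI η (hKR hη))
  obtain ⟨hgs, hgn⟩ := hW a1 ham ha2.2
  have hg2 : MemLp (AN.bG t.D.S'.κ t.ty.Om a1 : Cfg t.D.dz × Cfg t.D.ds × Cfg t.D.dm → F) 2 (AN.wM t.D.dz t.D.ds t.D.dm) :=
    ⟨hgs.aestronglyMeasurable, lt_of_le_of_lt hgn (ENNReal.mul_lt_top ENNReal.ofReal_lt_top ha2.1.2)⟩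
  have hgk : ∀ q : Cfg t.D.dz × Cfg t.D.ds × Cfg t.D.dm, AN.bG t.D.S'.κ t.ty.Om a1 q ≠ 0 → q.1 ∈ tsupport χ := by
    intro q hq
    exact ha2.2 _ _ (right_ne_zero_of_smul hq)
  obtain ⟨g, hg1, hgL, hge⟩ := AN.REP.apx_in t.D.S' t.D.φ (spsw t.D.ψ) (tsupport χ) L hK hL hKL hLR _ hg2 hgk e₁ he₁
  have hgL' : ∀ q, g q ≠ 0 → q.1 ∈ L := fun q hq => hgL q (subset_tsupport _ hq)
  have hsc : AL.sc t.ty.U t.ty.o (rp a0) =
      fun η s => ((χ η * gss η : ℝ) : ℂ) • t.D.S'.UU t.D.φ t.E t.l η (t.w0 s) := by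
    rw [hrp]
    exact lwm_sc t fun η => χ η * gss η
  have hae' : (AN.bG t.D.S'.κ (OmE t.D.S'.κ t.E t.l)
      (fun η s => ((χ η * gss η : ℝ) : ℂ) • t.D.S'.UU t.D.φ t.E t.l η (t.w0 s)) : Cfg t.D.dz × Cfg t.D.ds × Cfg t.D.dm → F)
      =ᵐ[AN.wM t.D.dz t.D.ds t.D.dm] AN.bG t.D.S'.κ t.ty.Om a1 := by
    rw [← hsc]
    exact hae
  have hbg : eLpNorm (fun q => b q - g q) 2 (AN.wM t.D.dz t.D.ds t.D.dm) ≤ ENNReal.ofReal (2 * e₁) := by
    have h1 : eLpNorm (fun q => b q - AN.bG t.D.S'.κ t.ty.Om a1 q) 2 (AN.wM t.D.dz t.D.ds t.D.dm) ≤ ENNReal.ofReal e₁ := by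
      refine le_trans (le_of_eq (eLpNorm_congr_ae ?_)) hb4
      filter_upwards [hae'] with q hq
      exact congrArg (fun v => b q - v) hq.symm
    have h2 : (fun q => b q - g q) =
        (fun q => b q - AN.bG t.D.S'.κ t.ty.Om a1 q) - fun q => g q - AN.bG t.D.S'.κ t.ty.Om a1 q := by
      funext q
      simp
    rw [h2]
    refine (eLpNorm_sub_le (hb1.stronglyMeasurable.sub hgs).aestronglyMeasurable
      (hg1.sm.continuous.stronglyMeasurable.sub hgs).aestronglyMeasurable one_le_two).trans ?_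
    refine (add_le_add h1 hge).trans ?_
    rw [← ENNReal.ofReal_add he₁.le he₁.le]
    exact ENNReal.ofReal_le_ofReal (by linarith)
  have hclaim := AN.LWT.lwt_claim t.D.M' hfin t.D.rep hLR hδ hC hGK hb1 hb2
    (fun q hq => hKL ((closure_minimal (fun p hp => hb3 p hp) (hK.isClosed.preimage continuous_fst)) hq)) hg1 hgL'
    (by positivity : 0 < 2 * e₁) hc₁ hee1 hbg hb5
  have hgi : ∀ R : ℝ, 0 < R → t.D.S'.GInv (AN.G.avg t.D.M' (AN.Zb t.D.φ (spsw t.D.ψ) g R)) := fun R hR =>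
    (AN.REP.All.ipr t.D.M' hfin t.D.S' t.D.rep _ (AN.REP.ob_tst _ _ g hg1.sm hg1.cs R hR)).1
  refine ⟨((s - 1 : ℝ) : ℂ) • a0 + a0, fun R x => ((s : ℝ) : ℂ) • rptJ t g R x, ?_, ?_, ?_, ?_⟩
  · have h1 : (((((s - 1 : ℝ) : ℂ) • a0 + a0 : DL t.ty.r (AL.Ek t.ty.n) t.ty.L)) : HL t.ty.r (AL.Ek t.ty.n)) - gT t.ty =
        ((s : ℝ) : ℂ) • ((a0 : HL t.ty.r (AL.Ek t.ty.n)) - gcl t.ty.Ω) := by
      have h2 : (((((s - 1 : ℝ) : ℂ) • a0 + a0 : DL t.ty.r (AL.Ek t.ty.n) t.ty.L)) : HL t.ty.r (AL.Ek t.ty.n)) =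
          ((s - 1 : ℝ) : ℂ) • (a0 : HL t.ty.r (AL.Ek t.ty.n)) + (a0 : HL t.ty.r (AL.Ek t.ty.n)) := rfl
      rw [h2, gT, gcl_smul, ← hsdef, smul_sub]
      push_cast
      rw [sub_smul, one_smul]
      abel
    rw [h1, norm_smul, Complex.norm_real, Real.norm_eq_abs, abs_of_pos hs]
    have h3 : ‖(a0 : HL t.ty.r (AL.Ek t.ty.n)) - gcl t.ty.Ω‖ ≤ e / s := by
      rw [ha0]
      exact lwm_dist t.ty.Ω_norm hζ (by positivity) hχ5
    calc s * ‖(a0 : HL t.ty.r (AL.Ek t.ty.n)) - gcl t.ty.Ω‖ ≤ s * (e / s) := mul_le_mul_of_nonneg_left h3 hs.le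
      _ = e := by field_simp
  · intro R hR
    exact lwm_smul_ginv (rpt_ginv t.D.hO (hgi R hR)) _
  · intro R u A hu
    filter_upwards [hu.R_lim.eventually_gt_atTop 0, hu.R_lim.eventually_ge_atTop R₁,
      hu.R_lim.eventually (AN.LWT.lwt_supp_ev hδ hg1.cs.isCompact), hu.R_lim.eventually ((AE.chiS _ _ _).sup δ hδ),
      hu.R_lim.eventually (AN.REP.one_dct (AE.chiS _ _ _) hgs hg2 he₁)] with n hRn hn1 hn2 hn3 hn4
    obtain ⟨hui, hun'⟩ := tr_GInv t.ty hRot (hu.inv n)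
    have hun : nsq (tr t.ty.O (u n)) ≤ A := hun'.trans_le (hu.norm n)
    have e1 : ipr (fun x => ((s : ℝ) : ℂ) • rptJ t g (R n) x) (u n) =
        ((s : ℝ) : ℂ) * ipr (AN.Zb t.D.φ (spsw t.D.ψ) g (R n)) (tr t.ty.O (u n)) := by
      rw [lwm_ipr_smul]
      congr 1
      have h1 : ipr (rptJ t g (R n)) (u n) =
          ipr (AN.G.avg t.D.M' (AN.Zb t.D.φ (spsw t.D.ψ) g (R n))) (tr t.ty.O (u n)) :=
        (hRot h91 t.D.O t.D.hO).2.2 (AN.G.avg t.D.M' (AN.Zb t.D.φ (spsw t.D.ψ) g (R n))) (u n)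
      rw [h1]
      exact (AN.REP.All.ipr t.D.M' hfin t.D.S' t.D.rep _ (AN.REP.ob_tst _ _ g hg1.sm hg1.cs (R n) hRn)).2 _ hui
    have e2 : ipr (ZT t.ty (R n) (((s - 1 : ℝ) : ℂ) • a0 + a0)) (u n) = ((s : ℝ) : ℂ) *
        ipr (AN.Zb t.D.φ (spsw t.D.ψ) (fun q => ((AL.chi (R n) q : ℝ) : ℂ) • AN.bG t.D.S'.κ t.ty.Om a1 q) (R n))
          (tr t.ty.O (u n)) := by
      rw [ZT_lin t.ty hfin hRot (hIso _) (hLin _) a0 a0 _ hRn (hu.inv n), Complex.conj_ofReal]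
      have h1 : ipr (ZT t.ty (R n) a0) (u n) =
          ipr (AN.Zb t.D.φ (spsw t.D.ψ) (fun q => ((AL.chi (R n) q : ℝ) : ℂ) • AN.bG t.D.S'.κ t.ty.Om a1 q) (R n))
            (tr t.ty.O (u n)) := by
        rw [ipr_ZT t.ty hRot (R n) a0 (u n)]
        exact (hZ (R n) hRn (tr t.ty.O (u n))).symm
      rw [h1]
      push_cast
      ring
    rw [e1, e2, ← mul_sub, norm_mul, Complex.norm_real, Real.norm_eq_abs, abs_of_pos hs]
    have hχm : Measurable (fun q : Cfg t.D.dz × Cfg t.D.ds × Cfg t.D.dm => AL.chi (R n) q) := (AE.chiS _ _ _).meas (R n)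
    have hcs : StronglyMeasurable fun q : Cfg t.D.dz × Cfg t.D.ds × Cfg t.D.dm =>
        ((AL.chi (R n) q : ℝ) : ℂ) • AN.bG t.D.S'.κ t.ty.Om a1 q :=
      (Complex.measurable_ofReal.comp hχm).stronglyMeasurable.smul hgs
    have hc2 : MemLp (fun q : Cfg t.D.dz × Cfg t.D.ds × Cfg t.D.dm => ((AL.chi (R n) q : ℝ) : ℂ) • AN.bG t.D.S'.κ t.ty.Om a1 q) 2
        (AN.wM t.D.dz t.D.ds t.D.dm) := by
      refine hg2.mono hcs.aestronglyMeasurable (ae_of_all _ fun q => ?_)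
      have hb := (AE.chiS t.D.dz t.D.ds t.D.dm).bd (R n) q
      rw [norm_smul, Complex.norm_real, Real.norm_of_nonneg hb.1]
      exact mul_le_of_le_one_left (norm_nonneg _) hb.2
    have hgm : MemLp g 2 (AN.wM t.D.dz t.D.ds t.D.dm) := by
      have := AN.REP.rx_lf t.D.dz t.D.ds t.D.dm
      exact hg1.sm.continuous.memLp_of_hasCompactSupport hg1.cs
    have hsub : ipr (AN.Zb t.D.φ (spsw t.D.ψ) g (R n)) (tr t.ty.O (u n)) -
        ipr (AN.Zb t.D.φ (spsw t.D.ψ) (fun q => ((AL.chi (R n) q : ℝ) : ℂ) • AN.bG t.D.S'.κ t.ty.Om a1 q) (R n))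
          (tr t.ty.O (u n)) =
        ipr (AN.Zb t.D.φ (spsw t.D.ψ) (fun q => g q - ((AL.chi (R n) q : ℝ) : ℂ) • AN.bG t.D.S'.κ t.ty.Om a1 q) (R n))
          (tr t.ty.O (u n)) :=
      AN.gGl_sub t.D.φ (spsw t.D.ψ) hRn hgm hc2 hui.1
    rw [hsub]
    have hnorm : eLpNorm (fun q => g q - ((AL.chi (R n) q : ℝ) : ℂ) • AN.bG t.D.S'.κ t.ty.Om a1 q) 2
        (AN.wM t.D.dz t.D.ds t.D.dm) ≤ ENNReal.ofReal (2 * e₁) := by
      have h1 : (fun q : Cfg t.D.dz × Cfg t.D.ds × Cfg t.D.dm => g q - ((AL.chi (R n) q : ℝ) : ℂ) • AN.bG t.D.S'.κ t.ty.Om a1 q) =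
          (fun q : Cfg t.D.dz × Cfg t.D.ds × Cfg t.D.dm => g q - AN.bG t.D.S'.κ t.ty.Om a1 q) +
            fun q : Cfg t.D.dz × Cfg t.D.ds × Cfg t.D.dm =>
              AN.bG t.D.S'.κ t.ty.Om a1 q - ((AL.chi (R n) q : ℝ) : ℂ) • AN.bG t.D.S'.κ t.ty.Om a1 q := by
        funext q
        simp only [Pi.add_apply]
        abel
      rw [h1]
      refine (eLpNorm_add_le (hg1.sm.continuous.stronglyMeasurable.sub hgs).aestronglyMeasurable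
        (hgs.sub hcs).aestronglyMeasurable (by norm_num)).trans ?_
      rw [two_mul, ENNReal.ofReal_add he₁.le he₁.le]
      exact add_le_add hge hn4
    have hfin2 := AN.LWT.lwt_gk hC hGK hn1 (hg1.sm.continuous.stronglyMeasurable.sub hcs) (fun q hq => by
      by_cases h : g q = 0
      · have h2 : ((AL.chi (R n) q : ℝ) : ℂ) • AN.bG t.D.S'.κ t.ty.Om a1 q ≠ 0 := by
          intro h3
          exact hq (by
            show g q - ((AL.chi (R n) q : ℝ) : ℂ) • AN.bG t.D.S'.κ t.ty.Om a1 q = 0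
            rw [h, h3, sub_zero])
        have h4 : AL.chi (R n) q ≠ 0 := by
          intro h5
          apply h2
          rw [h5, Complex.ofReal_zero, zero_smul]
        exact ⟨interior_subset (hKL (hgk q (right_ne_zero_of_smul h2))), hn3 q h4⟩
      · exact ⟨hgL' q h, hn2 q (subset_tsupport _ h)⟩) (by positivity : 0 ≤ 2 * e₁) hnorm hui
    have h5 : Real.sqrt (nsq (tr t.ty.O (u n))) ≤ Real.sqrt A := Real.sqrt_le_sqrt hun
    calc s * _ ≤ s * (C * (2 * e₁) * Real.sqrt (nsq (tr t.ty.O (u n)))) := mul_le_mul_of_nonneg_left hfin2 hs.le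
      _ = (s * (C * (2 * e₁))) * Real.sqrt (nsq (tr t.ty.O (u n))) := by ring
      _ ≤ e * Real.sqrt A := mul_le_mul hee2 h5 (Real.sqrt_nonneg _) he.le
  · filter_upwards [hclaim] with R hR
    have h1 : nsq (fun x => ((s : ℝ) : ℂ) • rptJ t g R x) = s ^ 2 * nsq (AN.G.avg t.D.M' (AN.Zb t.D.φ (spsw t.D.ψ) g R)) := by
      have h2 : nsq (rptJ t g R) = nsq (AN.G.avg t.D.M' (AN.Zb t.D.φ (spsw t.D.ψ) g R)) := lwm_nsq_rox t.D.hO _
      rw [← h2]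
      unfold nsq
      rw [← integral_const_mul]
      refine integral_congr_ae (Eventually.of_forall fun x => ?_)
      show ‖((s : ℝ) : ℂ) • rptJ t g R x‖ ^ 2 = s ^ 2 * ‖rptJ t g R x‖ ^ 2
      rw [norm_smul, Complex.norm_real, Real.norm_eq_abs, abs_of_pos hs, mul_pow]
    rw [h1, ← hsdef]
    exact mul_le_mul_of_nonneg_left hR (sq_nonneg s)

end Vale.Agent.P353.Z.ASY
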