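import Vale.Agent.P353.AN.SY.TyD
import Vale.Agent.P353.AN.REP.All
import Vale.Agent.P353.AN.E.Chi
import Vale.Agent.P353.AN.L.CrdB
import Vale.Agent.P353.AN.L.Crd

/-! # P353, all `N`, block SY: representatives of the functionals of the concrete weak profile system (fields `inv`, `supp`, `disj`, `rep`) -/

open MeasureTheory Filter Topology Matrix
open scoped ContDiff

namespace Vale.Agent.P353.Z

/-- `PW.Rep` without the lower bound -/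
structure PW.RepA {d : ℕ} {F : Type*} [NormedAddCommGroup F] [InnerProductSpace ℂ F] {S : Setup d F} {ι : Type} (P : PW S ι)
    (J : ∀ i, P.D i → ℝ → ℝ → Cfg d → F) : Prop where
  inv : ∀ i (a : P.D i) (ε : ℝ), 0 < ε → ∀ᶠ R in atTop, S.GInv (J i a ε R)
  supp : ∀ i (a : P.D i) (ε : ℝ), 0 < ε → ∃ c : ℝ, 0 < c ∧ ∀ᶠ R in atTop, ∀ x : Cfg d, ‖x‖ ≤ c * R → J i a ε R x = 0
  disj : ∀ i j, i ≠ j → ∀ (a : P.D i) (b : P.D j) (ε ε' : ℝ), 0 < ε → 0 < ε' → ∀ᶠ R in atTop, ∀ x : Cfg d,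
    J i a ε R x = 0 ∨ J j b ε' R x = 0
  rep : ∀ i (a : P.D i) (ε : ℝ), 0 < ε → ∀ (R : ℕ → ℝ) (u : ℕ → Cfg d → F) (A : ℝ), BdL S R u A →
    ∀ᶠ n in atTop, ‖ipr (J i a ε (R n)) (u n) - ipr (P.Z i (R n) a) (u n)‖ ≤ ε * Real.sqrt A

namespace ASY

open Vale.Agent.P353.Z.AJK

variable {N d k : ℕ} {F : Type} [NormedAddCommGroup F] [InnerProductSpace ℂ F]

/-- `Reg ⊆ Rg` -/
theorem rpt_reg {dh dm r ds : ℕ} (S : Setup d F) (φ : Spl dh dm d) (ψ : Spl r ds dh) : AN.Reg S φ ψ ⊆ AL.Rg S φ ψ := by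
  intro η hη hdet
  obtain ⟨v, hv, h0⟩ := Matrix.exists_mulVec_eq_zero_iff.2 hdet
  refine hv (hη v ?_)
  have h1 : ∑ i, (S.Dz φ ψ η i *ᵥ v) ⬝ᵥ (S.Dz φ ψ η i *ᵥ v) = 0 := by
    have h2 : v ⬝ᵥ ((∑ i, S.Dz φ ψ η i * S.Dz φ ψ η i) *ᵥ v) = 0 := by rw [h0, dotProduct_zero]
    rw [Matrix.sum_mulVec, dotProduct_sum] at h2
    have h3 : ∀ i, v ⬝ᵥ ((S.Dz φ ψ η i * S.Dz φ ψ η i) *ᵥ v) = -((S.Dz φ ψ η i *ᵥ v) ⬝ᵥ (S.Dz φ ψ η i *ᵥ v)) := by
      intro i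
      have ha : (S.Dz φ ψ η i).transpose = -S.Dz φ ψ η i := AN.glk_anti S φ ψ η i
      rw [← Matrix.mulVec_mulVec, Matrix.dotProduct_mulVec, ← Matrix.mulVec_transpose, ha, Matrix.neg_mulVec, neg_dotProduct]
    simp only [h3, Finset.sum_neg_distrib, neg_eq_zero] at h2
    exact h2
  intro i
  have hnn : ∀ w : Fin dm → ℝ, 0 ≤ w ⬝ᵥ w := fun w => Finset.sum_nonneg fun j _ => mul_self_nonneg (w j)
  have h4 := (Finset.sum_eq_zero_iff_of_nonneg fun i _ => hnn (S.Dz φ ψ η i *ᵥ v)).1 h1 i (Finset.mem_univ i)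
  exact dotProduct_self_eq_zero.1 h4

lemma rpt_cont {dh dm r ds : ℕ} {S : Setup d F} {φ : Spl dh dm d} {ψ : Spl r ds dh} {L : Finset (Fin r → ℝ)}
    {Om : Cfg r → Matrix (Fin dm) (Fin dm) ℝ} {K : Submodule ℂ F} {U : Cfg r → F →L[ℂ] F}
    (hB : AX.Bun S φ (AX.Mz S φ (spsw ψ)) L Om K U) :
    ContinuousOn Om (AN.Reg S φ ψ) ∧ ∀ η ∈ AN.Reg S φ ψ, IsOm S.κ (AN.Dz S φ ψ η) (Om η) := by
  have hdet : ∀ η ∈ AN.Reg S φ ψ, (∑ i, DM (AX.Mz S φ (spsw ψ)) η i * DM (AX.Mz S φ (spsw ψ)) η i).det ≠ 0 := by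
    intro η hη
    have h := rpt_reg S φ ψ hη
    simp only [AL.Rg, Set.mem_ofPred_eq] at h
    simp only [AX.DM_Dz]
    exact h
  refine ⟨?_, fun η hη => ?_⟩
  · refine continuousOn_pi.2 fun A => continuousOn_pi.2 fun B => ?_
    exact (hB.om_smooth A B).continuousOn.mono fun η hη => hdet η hη
  · have h := hB.om η (hdet η hη)
    have e : DM (AX.Mz S φ (spsw ψ)) η = AN.Dz S φ ψ η := by
      exact AX.DM_Dz S φ ψ η
    rwa [e] at h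

/-- representatives for one type -/
theorem rpt_one (hfin : FiniteDimensional ℂ F) {M : BFSS.Model N d F} {S : Setup d F} {n : Fin k → ℕ} (t : TyD M S n)
    (hIso : AL.IsoStmt t.ty.S') (a : DL t.ty.r (AL.Ek t.ty.n) t.ty.L) {ε : ℝ} (hε : 0 < ε) :
    ∃ b : Cfg t.D.dz × Cfg t.D.ds × Cfg t.D.dm → F, AN.REP.IsB t.D.S' t.D.φ (spsw t.D.ψ) b ∧
      (∀ R : ℝ, 0 < R → t.D.S'.GInv (AN.G.avg t.D.M' (AN.Zb t.D.φ (spsw t.D.ψ) b R))) ∧
      (∃ c : ℝ, 0 < c ∧ ∀ᶠ R in atTop, ∀ x : Cfg d, ‖x‖ ≤ c * R → AN.G.avg t.D.M' (AN.Zb t.D.φ (spsw t.D.ψ) b R) x = 0) ∧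
      ∀ (R : ℕ → ℝ) (u : ℕ → Cfg d → F) (A : ℝ), BdL t.D.S' R u A → ∀ᶠ n in atTop,
        ‖ipr (AN.G.avg t.D.M' (AN.Zb t.D.φ (spsw t.D.ψ) b (R n))) (u n) -
          AL.ZZ S.κ t.ty.φ t.ty.ψ t.ty.Om (AL.sc t.ty.U t.ty.o (rp a)) (R n) (u n)‖ ≤ ε * Real.sqrt A := by
  have hA : IsCompact (tsupport (rp a)) := (rp_tst a).1.2
  have hR : tsupport (rp a) ⊆ AL.Rg t.ty.S' t.ty.φ t.ty.ψ := sub_Rg t.ty (rp_tst a).2
  have hs := (sec2 t.ty hIso a hA (rp_tst a).2 subset_rfl).1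
  obtain ⟨a', ham, ha2, -, hZ⟩ := AL.crd655_rep S.κ t.ty.φ t.ty.ψ t.ty.Om hA.isClosed.measurableSet hs
  obtain ⟨hOc, hOI⟩ := rpt_cont t.dat.bun
  obtain ⟨b, h1, -, h3, h4, h5⟩ := AN.REP.All.one t.D.M' hfin t.D.S' t.D.rep t.D.dh t.D.dm t.D.dz t.D.ds t.D.φ (spsw t.D.ψ)
    t.dat.sub t.dat.cen t.pos t.ty.Om hOc hOI (fun R q => AL.chi R q) (AE.chiS _ _ _) a' (tsupport (rp a)) hA
    (hR.trans (AL.crd655_reg _ _ _)) ham ha2.1 ha2.2 ε hε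
  refine ⟨b, h1, h3, h4, fun R u A hu => ?_⟩
  filter_upwards [h5 R u A hu, hu.R_lim.eventually_gt_atTop 0] with n hn hRn
  rw [← hZ (R n) hRn (u n)]
  exact hn

lemma rpt_rox (O : Matrix (Fin d) (Fin d) ℝ) (x : Cfg d) : rox 1 O x = ro O x := by
  ext ⟨i, A⟩
  rw [AN.rt_apply]
  show _ = ∑ B, O A B * x (i, B)
  rw [Finset.sum_eq_single i]
  · simp
  · intro j _ hj
    simp [Matrix.one_apply_ne hj.symm]
  · intro h
    exact absurd (Finset.mem_univ _) h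

lemma rpt_avg {M : BFSS.Model N d F} {S : Setup d F} {n : Fin k → ℕ} (D : FrM M S n) (f : Cfg d → F) (x : Cfg d) :
    AN.G.avg D.M' f (rox 1 D.O x) = AN.G.avg M (fun y => f (rox 1 D.O y)) x := by
  unfold AN.G.avg
  rw [D.S_eq]
  refine integral_congr_ae (ae_of_all _ fun U => ?_)
  show M.S U (f (D.M'.act U⁻¹ (rox 1 D.O x))) = M.S U (f (rox 1 D.O (M.act U⁻¹ x)))
  rw [rpt_rox, rpt_rox, D.act_eq]

lemma rpt_ginv {S : Setup d F} {O : Matrix (Fin d) (Fin d) ℝ} (hO : O * O.transpose = 1) {v : Cfg d → F}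
    (hv : (S.rot 1 h91 O hO).GInv v) : S.GInv (fun x => v (rox 1 O x)) := by
  have hL : ContDiff ℝ ∞ (rox 1 O : Cfg d → Cfg d) := (LinearMap.toContinuousLinearMap (AN.rtL 1 O)).contDiff
  refine ⟨⟨hv.1.1.comp hL, ?_⟩, fun B x => ?_⟩
  · exact hv.1.2.comp_homeomorph (AN.rtE 1 h91 O hO).toHomeomorph
  · obtain ⟨-, -, -, -, -, -, hG⟩ := AN.rot_stmt S 1 h91 O hO
    have h1 : ∀ C, ∑ C', (O C C' : ℂ) • S.G C' (fun z => v (rox 1 O z)) x = 0 := by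
      intro C
      rw [← hG v (hv.1.1.differentiable (by simp)) C x]
      exact hv.2 C _
    have h2 := AN.rt_one (K := ℂ) (fun A B => ((O A B : ℝ) : ℂ)) (fun k l => AN.rt_orthc hO k l) B
      fun C' => S.G C' (fun z => v (rox 1 O z)) x
    rw [← h2]
    refine Finset.sum_eq_zero fun A _ => ?_
    rw [h1 A, smul_zero]

/-- representative attached to a profile -/
noncomputable def rptJ {M : BFSS.Model N d F} {S : Setup d F} {n : Fin k → ℕ} (t : TyD M S n)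
    (b : Cfg t.D.dz × Cfg t.D.ds × Cfg t.D.dm → F) (R : ℝ) (x : Cfg d) : F :=
  AN.G.avg t.D.M' (AN.Zb t.D.φ (spsw t.D.ψ) b R) (rox 1 t.D.O x)

lemma rptJ_eq {M : BFSS.Model N d F} {S : Setup d F} {n : Fin k → ℕ} (t : TyD M S n)
    (b : Cfg t.D.dz × Cfg t.D.ds × Cfg t.D.dm → F) (R : ℝ) (x : Cfg d) :
    rptJ t b R x = AN.G.avg M (fun y => AN.Zb t.D.φ (spsw t.D.ψ) b R (rox 1 t.D.O y)) x := rpt_avg t.D _ x

/-- the orthogonal change of the colour frame as a linear equivalence -/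
noncomputable def rptA (O : Matrix (Fin d) (Fin d) ℝ) (hO : O * O.transpose = 1) : Cfg d ≃L[ℝ] Cfg d :=
  (AN.rtE 1 h91 O hO).toContinuousLinearEquiv

lemma rptA_apply (O : Matrix (Fin d) (Fin d) ℝ) (hO : O * O.transpose = 1) (x : Cfg d) : rptA O hO x = rox 1 O x := rfl

lemma rptA_symm (O : Matrix (Fin d) (Fin d) ℝ) (hO : O * O.transpose = 1) (x : Cfg d) :
    (rptA O hO).symm x = ro O.transpose x := by
  rw [ContinuousLinearEquiv.symm_apply_eq, rptA_apply, rpt_rox]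
  have hO' : O.transpose * O = 1 := mul_eq_one_comm.1 hO
  have h := AN.rt_inv (R := 1) h91 (O := O.transpose) (by rw [Matrix.transpose_transpose]; exact hO') x
  rw [Matrix.transpose_one, Matrix.transpose_transpose, rpt_rox, rpt_rox] at h
  exact h.symm

/-- **fields `inv`, `supp`, `disj`, `rep` of the concrete system** -/
theorem repA (hfin : FiniteDimensional ℂ F) {M : BFSS.Model N d F} {S : Setup d F} (hRot : AE.RotOStmt S)
    (hIso : ∀ S' : Setup d F, AL.IsoStmt S') (hLin : ∀ S' : Setup d F, AL.LinStmt S') (hZ : ∀ S' : Setup d F, AL.ZMemStmt S')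
    (hUB : ∀ S' : Setup d F, AL.UBStmt S') (hC : AN.Cless S) (hA : Alg) (TD : ∀ p : Typ N, TyD M S (pn p.1)) :
    ∃ J, (pwT hfin hRot hIso hLin hZ hUB (fun p : Typ N => (TD p).ty) hC).RepA J := by
  classical
  have H := fun (p : Typ N) (a : DL (TD p).ty.r (AL.Ek (TD p).ty.n) (TD p).ty.L) (ε : ℝ) (hε : 0 < ε) =>
    rpt_one hfin (TD p) (hIso _) a hε
  choose b h1 h2 h3 h4 using H
  refine ⟨fun p a ε R => if h : 0 < ε then rptJ (TD p) (b p a ε h) R else 0, ⟨?_, ?_, ?_, ?_⟩⟩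
  · intro p a ε hε
    filter_upwards [eventually_gt_atTop (0 : ℝ)] with R hR
    rw [dif_pos hε]
    exact rpt_ginv (TD p).D.hO (h2 p a ε hε R hR)
  · intro p a ε hε
    obtain ⟨c, hc, h⟩ := h3 p a ε hε
    refine ⟨c, hc, ?_⟩
    filter_upwards [h] with R hR x hx
    rw [dif_pos hε]
    refine hR _ ?_
    rw [AN.rt_norm h91 (TD p).D.hO]
    exact hx
  · intro p q hpq a a' ε ε' hε hε'
    have hreg : ∀ (p : Typ N) (η : Cfg (TD p).D.dz), η ∈ AN.Reg (TD p).D.S' (TD p).D.φ (spsw (TD p).D.ψ) →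
        ∀ a b, a ≠ b → ∃ i : Fin 9, (TD p).D.fr.val η i a ≠ (TD p).D.fr.val η i b := by
      intro p η hη
      exact ((hA.pt M S _ _ (TD p).D (hA.val _ _) (hA.reg _ _) (hA.std _ _) hA.basM).2.2 η).1 (rpt_reg _ _ _ hη)
    have hne : p.1 ≠ q.1 := fun h => hpq (Subtype.ext h)
    have h := AN.REP.All.disj M _ _ _ _ _ _ _ _ (TD p).D.φ (spsw (TD p).D.ψ) (TD q).D.φ (spsw (TD q).D.ψ)
      (rptA (TD p).D.O (TD p).D.hO) (rptA (TD q).D.O (TD q).D.hO)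
      (AN.Reg (TD p).D.S' (TD p).D.φ (spsw (TD p).D.ψ)) (AN.Reg (TD q).D.S' (TD q).D.φ (spsw (TD q).D.ψ))
      (fun η hη η' hη' U => by
        rw [rptA_symm, rptA_symm]
        exact hA.sep M S p.1 q.1 hne (TD p).D (TD q).D η η' (hreg p η hη) (hreg q η' hη') U)
      (b p a ε hε) (b q a' ε' hε') (h1 p a ε hε).cs (h1 p a ε hε).reg (h1 q a' ε' hε').cs (h1 q a' ε' hε').reg
    filter_upwards [h] with R hR x
    rw [dif_pos hε, dif_pos hε', rptJ_eq, rptJ_eq]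
    exact hR x
  · intro p a ε hε R u A hu
    have hu' : BdL (TD p).D.S' R (fun n => tr (TD p).ty.O (u n)) A :=
      ⟨hu.R_lim, fun n => (tr_GInv (TD p).ty hRot (hu.inv n)).1, fun n => (tr_GInv (TD p).ty hRot (hu.inv n)).2.trans_le (hu.norm n)⟩
    filter_upwards [h4 p a ε hε R _ A hu'] with n hn
    rw [dif_pos hε]
    have e1 : ipr (rptJ (TD p) (b p a ε hε) (R n)) (u n) =
        ipr (AN.G.avg (TD p).D.M' (AN.Zb (TD p).D.φ (spsw (TD p).D.ψ) (b p a ε hε) (R n))) (tr (TD p).ty.O (u n)) :=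
      (hRot h91 (TD p).D.O (TD p).D.hO).2.2 (AN.G.avg (TD p).D.M' (AN.Zb (TD p).D.φ (spsw (TD p).D.ψ) (b p a ε hε) (R n))) (u n)
    have e2 := ipr_ZT (TD p).ty hRot (R n) a (u n)
    rw [e1]
    change ‖_ - ipr (ZT (TD p).ty (R n) a) (u n)‖ ≤ _
    rw [e2]
    exact hn

end ASY

end Vale.Agent.P353.Z
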